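import Vale.Agent.Lib.P170.Core

set_option linter.unusedSectionVars false

namespace Vale.Agent.Lib.P170

open Finset

lemma exp_neg_two_mul_le {x : ℝ} (h0 : 0 ≤ x) (h1 : x ≤ 1 / 2) :
    Real.exp (-(2 * x)) ≤ 1 - x := by
  have h := Real.add_one_le_exp (2 * x)
  rw [Real.exp_neg]
  have hpos : (0 : ℝ) < 2 * x + 1 := by linarith
  calc (Real.exp (2 * x))⁻¹ ≤ (2 * x + 1)⁻¹ := inv_anti₀ hpos h
    _ ≤ 1 - x := by
      rw [inv_le_iff_one_le_mul₀ hpos]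
      nlinarith

lemma rho_pow_lower {k n : ℕ} (h : k ≤ n) (hn : 0 < n) (h2 : 2 * (k : ℝ) ^ 2 ≤ n) (j : ℕ) :
    Real.exp (-(2 * (k : ℝ) ^ 2 * j / n)) ≤ rho k n ^ j := by
  have hn' : (0 : ℝ) < n := by exact_mod_cast hn
  set x : ℝ := (k : ℝ) ^ 2 / n with hx
  have hx0 : 0 ≤ x := by positivity
  have hx1 : x ≤ 1 / 2 := by rw [hx, div_le_iff₀ hn']; linarith
  have h3 : Real.exp (-(2 * x)) ≤ rho k n :=
    (exp_neg_two_mul_le hx0 hx1).trans (by have := one_sub_rho_le h hn; linarith)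
  calc Real.exp (-(2 * (k : ℝ) ^ 2 * j / n)) = Real.exp (-(2 * x)) ^ j := by
        rw [← Real.exp_nat_mul]; congr 1; rw [hx]; field_simp
    _ ≤ rho k n ^ j := pow_le_pow_left₀ (Real.exp_pos _).le h3 j

/-- At a suitable constant density the random formula is satisfiable with probability at
most one half (first moment). -/
lemma bdd_density (k : ℕ) :
    ∃ a N : ℕ, ∀ n : ℕ, N ≤ n → ∀ m : ℕ, a * n ≤ m → satProb k n m ≤ 1 / 2 := by
  set q : ℝ := 1 - (1 / 2 : ℝ) ^ k with hq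
  have hq0 : 0 ≤ q := by
    have : (1 / 2 : ℝ) ^ k ≤ 1 := pow_le_one₀ (by norm_num) (by norm_num)
    linarith
  have hq1 : q < 1 := by
    have : (0 : ℝ) < (1 / 2 : ℝ) ^ k := by positivity
    linarith
  set q' : ℝ := (1 + q) / 2 with hq'
  have hq'0 : 0 < q' := by linarith
  have hq'1 : q' < 1 := by linarith
  obtain ⟨a, ha⟩ := exists_pow_lt_of_lt_one (show (0 : ℝ) < 1 / 4 by norm_num) hq'1
  set δ : ℝ := (1 - q) / (1 + q) with hδ
  have hδ0 : 0 < δ := div_pos (by linarith) (by linarith)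
  refine ⟨a, max (k + 1) (⌈(k : ℝ) ^ 2 / δ⌉₊ + 1), fun n hn m hm => ?_⟩
  have hkn : k ≤ n := by have := le_max_left (k + 1) (⌈(k : ℝ) ^ 2 / δ⌉₊ + 1); omega
  have hn0 : 0 < n := by have := le_max_left (k + 1) (⌈(k : ℝ) ^ 2 / δ⌉₊ + 1); omega
  have hn' : (0 : ℝ) < n := by exact_mod_cast hn0
  have hKn : (k : ℝ) ^ 2 / n ≤ δ := by
    have h1 : ⌈(k : ℝ) ^ 2 / δ⌉₊ ≤ n := by
      have := le_max_right (k + 1) (⌈(k : ℝ) ^ 2 / δ⌉₊ + 1); omega
    have h2 : (k : ℝ) ^ 2 / δ ≤ n := (Nat.le_ceil _).trans (by exact_mod_cast h1)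
    rw [div_le_iff₀ hδ0] at h2
    rw [div_le_iff₀ hn']
    linarith
  have hρ : q ≤ q' * rho k n := by
    have h1 := one_sub_rho_le hkn hn0
    have h2 : 1 - δ ≤ rho k n := by linarith
    have e : q' * (1 - δ) = q := by rw [hq', hδ]; field_simp; ring
    nlinarith
  refine (satProb_antitone k n hm).trans ?_
  have hfm := first_moment k n hkn hn0 (a * n)
  have hρpos : 0 < rho k n := rho_pos hkn hn0
  have h1 : q ^ (a * n) ≤ (q' * rho k n) ^ (a * n) := pow_le_pow_left₀ hq0 hρ _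
  have h2 : rho k n ^ (a * n) * satProb k n (a * n) ≤
      rho k n ^ (a * n) * ((2 : ℝ) ^ n * q' ^ (a * n)) := by
    calc rho k n ^ (a * n) * satProb k n (a * n) ≤ (2 : ℝ) ^ n * q ^ (a * n) := hfm
      _ ≤ (2 : ℝ) ^ n * (q' * rho k n) ^ (a * n) :=
        mul_le_mul_of_nonneg_left h1 (by positivity)
      _ = rho k n ^ (a * n) * ((2 : ℝ) ^ n * q' ^ (a * n)) := by rw [mul_pow]; ring
  have h3 : satProb k n (a * n) ≤ (2 : ℝ) ^ n * q' ^ (a * n) :=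
    le_of_mul_le_mul_left h2 (by positivity)
  have h4 : q' ^ (a * n) ≤ (1 / 4 : ℝ) ^ n := by
    rw [pow_mul]; exact pow_le_pow_left₀ (by positivity) ha.le n
  have h5 : (2 : ℝ) ^ n * (1 / 4 : ℝ) ^ n = (1 / 2 : ℝ) ^ n := by rw [← mul_pow]; norm_num
  have h6 : (1 / 2 : ℝ) ^ n ≤ 1 / 2 := by
    calc (1 / 2 : ℝ) ^ n ≤ (1 / 2 : ℝ) ^ 1 :=
          pow_le_pow_of_le_one (by norm_num) (by norm_num) hn0
      _ = 1 / 2 := by norm_num
  calc satProb k n (a * n) ≤ (2 : ℝ) ^ n * q' ^ (a * n) := h3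
    _ ≤ (2 : ℝ) ^ n * (1 / 4 : ℝ) ^ n := mul_le_mul_of_nonneg_left h4 (by positivity)
    _ = (1 / 2 : ℝ) ^ n := h5
    _ ≤ 1 / 2 := h6

/-- A threshold sequence is eventually bounded above. -/
lemma thr_bdd {k : ℕ} {r : ℕ → ℝ} (hr : IsThresholdSeq k r) :
    ∃ (C : ℝ) (N : ℕ), ∀ n, N ≤ n → r n ≤ C := by
  obtain ⟨a, N₀, hBD⟩ := bdd_density k
  have h1 := (hr 1 one_pos).1
  have hev : ∀ᶠ n in Filter.atTop, (1 / 2 : ℝ) < satProb k n ⌊(r n - 1) * n⌋₊ :=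
    h1.eventually (lt_mem_nhds (by norm_num))
  obtain ⟨N₁, hN₁⟩ := Filter.eventually_atTop.mp hev
  refine ⟨a + 1, max (max N₀ N₁) 1, fun n hn => ?_⟩
  have hn0 : N₀ ≤ n := le_trans (le_trans (le_max_left _ _) (le_max_left _ _)) hn
  have hn1 : N₁ ≤ n := le_trans (le_trans (le_max_right _ _) (le_max_left _ _)) hn
  have hnpos : 0 < n := lt_of_lt_of_le one_pos (le_trans (le_max_right _ _) hn)
  have hlt : ⌊(r n - 1) * n⌋₊ < a * n := by
    by_contra hcon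
    push Not at hcon
    have := hBD n hn0 _ hcon
    linarith [hN₁ n hn1]
  have h2 : (r n - 1) * n < ((a * n : ℕ) : ℝ) := (Nat.floor_lt' (by omega)).mp hlt
  push_cast at h2
  have hn' : (0 : ℝ) < n := by exact_mod_cast hnpos
  have h3 : r n - 1 < a := lt_of_mul_lt_mul_right h2 hn'.le
  linarith

/-- A threshold sequence is eventually larger than `-ε`. -/
lemma thr_pos {k : ℕ} {r : ℕ → ℝ} (hr : IsThresholdSeq k r) (ε : ℝ) (hε : 0 < ε) :
    ∃ N : ℕ, ∀ n, N ≤ n → 0 < (r n + ε) * n := by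
  have h2 := (hr ε hε).2
  have hev : ∀ᶠ n in Filter.atTop, satProb k n ⌊(r n + ε) * n⌋₊ < 1 :=
    h2.eventually (gt_mem_nhds (by norm_num))
  obtain ⟨N, hN⟩ := Filter.eventually_atTop.mp hev
  refine ⟨N, fun n hn => ?_⟩
  by_contra hcon
  push Not at hcon
  have := hN n hn
  rw [Nat.floor_of_nonpos hcon, satProb_zero] at this
  exact lt_irrefl _ this

end Vale.Agent.Lib.P170
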