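import Mathlib

namespace Vale.Agent.Lib.P170

/-- A literal on the Boolean variables `x_0, ..., x_{n-1}`: a variable together with a sign
(`true` for the positive literal `x_i`, `false` for the negated literal). -/
abbrev Lit (n : ℕ) : Type := Fin n × Bool

/-- A proper `k`-clause on `n` variables: a set of exactly `k` literals whose variables are
pairwise distinct. -/
def ProperClause (k n : ℕ) : Type :=
  {L : Finset (Lit n) // L.card = k ∧ ∀ l ∈ L, ∀ l' ∈ L, l.1 = l'.1 → l = l'}

/-- The assignment `σ` satisfies the clause `c` (a disjunction) if it makes one of its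
literals true. -/
def ProperClause.SatBy {k n : ℕ} (c : ProperClause k n) (σ : Fin n → Bool) : Prop :=
  ∃ l ∈ c.1, σ l.1 = l.2

/-- `satProb k n m` is the probability `P_{k,n}(m)` that the conjunction of `m` independent
uniformly random proper `k`-clauses on `n` variables is satisfiable: the number of
satisfiable sequences of `m` clauses divided by the number of all such sequences. -/
noncomputable def satProb (k n m : ℕ) : ℝ :=
  (Nat.card {F : Fin m → ProperClause k n // ∃ σ : Fin n → Bool, ∀ j, (F j).SatBy σ} : ℝ) /
    (Nat.card (ProperClause k n) : ℝ) ^ m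

/-- `r` is a sharp threshold sequence for random `k`-SAT (a sequence as in Friedgut's
theorem): for every `ε > 0`, `P_{k,n}(⌊(r n - ε) n⌋) → 1` and `P_{k,n}(⌊(r n + ε) n⌋) → 0`
as `n → ∞`. -/
def IsThresholdSeq (k : ℕ) (r : ℕ → ℝ) : Prop :=
  ∀ ε : ℝ, 0 < ε →
    Filter.Tendsto (fun n : ℕ => satProb k n ⌊(r n - ε) * n⌋₊) Filter.atTop (nhds 1) ∧
    Filter.Tendsto (fun n : ℕ => satProb k n ⌊(r n + ε) * n⌋₊) Filter.atTop (nhds 0)

end Vale.Agent.Lib.P170
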