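import Vale.Agent.Lib.P170.WR
import Vale.Agent.Lib.P170.Defs

set_option linter.unusedSectionVars false

namespace Vale.Agent.Lib.P170

open Finset

/-- Ordered proper clauses: `k` literals on pairwise distinct variables, in order. -/
def OC (k : ℕ) (V : Type*) : Type _ := {c : WC k V // Function.Injective (fun i => (c i).1)}

/-- The underlying clause of an ordered proper clause. -/
def ocVal {k : ℕ} {V : Type*} (c : OC k V) : WC k V := c.1

/-- Satisfaction of an ordered proper clause. -/
def osat {k : ℕ} {V : Type*} (σ : V → Bool) (c : OC k V) : Prop := wsat σ (ocVal c)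

section OCsec

variable {k : ℕ} {V : Type*} [Fintype V] [DecidableEq V]

open Classical in
noncomputable instance instFintypeOC : Fintype (OC k V) := by
  unfold OC; infer_instance

/-- Ordered proper clauses are pairs of an injective choice of variables and a sign vector. -/
def ocEquiv : OC k V ≃ (Fin k ↪ V) × (Fin k → Bool) where
  toFun c := (⟨fun i => (c.1 i).1, c.2⟩, fun i => (c.1 i).2)
  invFun p := ⟨fun i => (p.1 i, p.2 i), fun i j h => p.1.injective h⟩
  left_inv c := by apply Subtype.ext; funext i; rfl
  right_inv p := by rfl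

lemma card_OC : Fintype.card (OC k V) = (Fintype.card V).descFactorial k * 2 ^ k := by
  rw [Fintype.card_congr ocEquiv, Fintype.card_prod, Fintype.card_embedding_eq]
  simp

/-- The fraction of clauses drawn with replacement that are proper. -/
noncomputable def rho (k N : ℕ) : ℝ := (N.descFactorial k : ℝ) / (N : ℝ) ^ k

lemma rho_nonneg (k N : ℕ) : 0 ≤ rho k N := by unfold rho; positivity

lemma rho_le_one (k N : ℕ) : rho k N ≤ 1 := by
  unfold rho
  rcases Nat.eq_zero_or_pos N with h | h
  · subst h
    rcases Nat.eq_zero_or_pos k with hk | hk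
    · subst hk; simp
    · simp [Nat.descFactorial_of_lt hk, hk.ne']
  · rw [div_le_one (by positivity)]
    exact_mod_cast Nat.descFactorial_le_pow N k

lemma rho_pos {k N : ℕ} (h : k ≤ N) (hN : 0 < N) : 0 < rho k N := by
  unfold rho
  have : 0 < N.descFactorial k := Nat.descFactorial_pos.mpr h  
  positivity

lemma one_sub_rho_le {k N : ℕ} (h : k ≤ N) (hN : 0 < N) :
    1 - rho k N ≤ (k : ℝ) ^ 2 / N := by
  have hNpos : (0 : ℝ) < N := by exact_mod_cast hN
  have h1 : ((N + 1 - k : ℕ) : ℝ) ^ k ≤ (N.descFactorial k : ℝ) := by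
    exact_mod_cast Nat.pow_sub_le_descFactorial N k
  have h2 : ((N + 1 - k : ℕ) : ℝ) = (N : ℝ) + 1 - k := by
    rw [Nat.cast_sub (by omega)]; push_cast; ring
  have h3 : (1 + -((k : ℝ) / N)) ^ k ≤ rho k N := by
    unfold rho
    rw [le_div_iff₀ (by positivity), ← mul_pow]
    refine le_trans (pow_le_pow_left₀ ?_ ?_ k) h1
    · have : (k : ℝ) / N ≤ 1 := by
        rw [div_le_one hNpos]; exact_mod_cast h
      nlinarith
    · rw [h2]
      have : (1 + -((k : ℝ) / N)) * N = N - k := by field_simp; ring
      rw [this]; linarith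
  have h4 : 1 + (k : ℝ) * (-((k : ℝ) / N)) ≤ (1 + -((k : ℝ) / N)) ^ k := by
    refine one_add_mul_le_pow ?_ k
    have : (k : ℝ) / N ≤ 1 := by
      rw [div_le_one hNpos]; exact_mod_cast h
    linarith
  have h5 : (k : ℝ) * (-((k : ℝ) / N)) = -((k : ℝ) ^ 2 / N) := by ring
  linarith

lemma OC_nonempty (h : k ≤ Fintype.card V) : Nonempty (OC k V) := by
  have : 0 < Fintype.card (OC k V) := by
    rw [card_OC]
    exact Nat.mul_pos (Nat.descFactorial_pos.mpr h) (by positivity)
  exact Fintype.card_pos_iff.mp this

/-- Weight on clauses with replacement obtained from the uniform weight on ordered proper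
clauses. -/
noncomputable def properW (k : ℕ) (V : Type*) [Fintype V] [DecidableEq V] : WC k V → ℝ :=
  push (ocVal : OC k V → WC k V) (unif (OC k V))

lemma properW_nonneg (c : WC k V) : 0 ≤ properW k V c :=
  push_nonneg _ _ (fun _ => unif_nonneg _) c

lemma sum_properW (h : k ≤ Fintype.card V) : ∑ c, properW k V c = 1 := by
  have := OC_nonempty (k := k) (V := V) h
  rw [properW, sum_push, sum_unif]

lemma properW_dom (h : k ≤ Fintype.card V) [Nonempty V] (c : WC k V) :
    rho k (Fintype.card V) * properW k V c ≤ unif (WC k V) c := by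
  classical
  have hN : (0 : ℝ) < Fintype.card V := by exact_mod_cast Fintype.card_pos
  have hO : (0 : ℝ) < Fintype.card (OC k V) := by
    have := OC_nonempty (k := k) (V := V) h
    exact_mod_cast Fintype.card_pos
  have h1 : properW k V c ≤ (Fintype.card (OC k V) : ℝ)⁻¹ := by
    unfold properW push unif
    rw [Finset.sum_const, nsmul_eq_mul]
    have : (0 : ℝ) ≤ (Fintype.card (OC k V) : ℝ)⁻¹ := by positivity
    refine mul_le_of_le_one_left this ?_
    rw [Nat.cast_le_one]
    refine Finset.card_le_one.mpr fun a ha b hb => Subtype.ext ?_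
    simp only [Finset.mem_filter, Finset.mem_univ, true_and] at ha hb
    unfold ocVal at ha hb
    rw [ha, hb]
  have h2 : rho k (Fintype.card V) * (Fintype.card (OC k V) : ℝ)⁻¹ = unif (WC k V) c := by
    unfold rho unif
    rw [card_WC, card_OC]
    push_cast
    have : ((Fintype.card V).descFactorial k : ℝ) ≠ 0 := by
      have := Nat.descFactorial_pos.mpr h
      positivity
    rw [mul_pow]
    field_simp
  calc rho k (Fintype.card V) * properW k V c
      ≤ rho k (Fintype.card V) * (Fintype.card (OC k V) : ℝ)⁻¹ :=
        mul_le_mul_of_nonneg_left h1 (rho_nonneg _ _)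
    _ = _ := h2

lemma gl_properW (m : ℕ) (S : Set (V → Bool)) :
    gl wsat (List.replicate m (properW k V)) S = gl osat (List.replicate m (unif (OC k V))) S := by
  have := gl_transport_replicate (wsat (k := k) (V := V)) (osat (k := k) (V := V)) id
    (ocVal : OC k V → WC k V) (fun _ _ => Iff.rfl) (unif (OC k V)) m S
  rw [Set.image_id] at this
  exact this

/-- With replacement versus ordered proper clauses: lower bound. -/
lemma wr_lower (h : k ≤ Fintype.card V) [Nonempty V] (m : ℕ) (S : Set (V → Bool)) :
    rho k (Fintype.card V) ^ m * gl osat (List.replicate m (unif (OC k V))) S ≤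
      gl wsat (List.replicate m (unif (WC k V))) S := by
  rw [← gl_properW]
  exact mix_lower wsat _ _ _ (rho_nonneg _ _) properW_nonneg (properW_dom h) m S

/-- With replacement versus ordered proper clauses: upper bound. -/
lemma wr_upper (h : k ≤ Fintype.card V) [Nonempty V] (m s : ℕ) (S : Set (V → Bool)) :
    gl wsat (List.replicate m (unif (WC k V))) S ≤
      gl osat (List.replicate (m - s) (unif (OC k V))) S +
        tail (1 - rho k (Fintype.card V)) m (s + 1) := by
  rw [← gl_properW]
  exact mix_upper wsat _ _ _ (rho_nonneg _ _) (rho_le_one _ _) properW_nonneg (properW_dom h)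
    (sum_properW h) sum_unif_le m s S

end OCsec

end Vale.Agent.Lib.P170
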