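import Vale.Agent.Lib.P170.Proper

set_option linter.unusedSectionVars false

namespace Vale.Agent.Lib.P170

open Finset

section Transports

variable {k : ℕ}

lemma push_unif_equiv {C C' : Type*} [Fintype C] [Fintype C'] (φ : C' ≃ C) :
    push (φ : C' → C) (unif C') = unif C := by
  classical
  funext c
  have : (Finset.univ.filter fun c' => φ c' = c) = {φ.symm c} := by
    ext c'; simp [Equiv.eq_symm_apply]
  simp only [push, this, Finset.sum_singleton, unif, Fintype.card_congr φ]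

/-- Renaming the variables of a clause along a bijection. -/
def wcMap {V V' : Type*} (e : V ≃ V') : WC k V ≃ WC k V' :=
  Equiv.arrowCongr (Equiv.refl (Fin k)) (Equiv.prodCongr e (Equiv.refl Bool))

lemma wcMap_sat {V V' : Type*} (e : V ≃ V') (σ : V → Bool) (c : WC k V) :
    wsat (σ ∘ e.symm) (wcMap e c) ↔ wsat σ c := by
  simp [wsat, wcMap]

lemma gW_congr {V V' : Type*} [Fintype V] [DecidableEq V] [Fintype V'] [DecidableEq V']
    (e : V ≃ V') (m : ℕ) :
    gl wsat (List.replicate m (unif (WC k V'))) Set.univ =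
      gl wsat (List.replicate m (unif (WC k V))) Set.univ := by
  have h := gl_transport_replicate (wsat (k := k) (V := V')) (wsat (k := k) (V := V))
    (fun σ => σ ∘ e.symm) (wcMap e) (wcMap_sat e) (unif (WC k V)) m Set.univ
  have himg : (fun σ : V → Bool => σ ∘ e.symm) '' Set.univ = Set.univ := by
    refine Set.image_univ_of_surjective fun σ' => ⟨σ' ∘ e, ?_⟩
    funext v; simp
  rw [himg, push_unif_equiv] at h
  exact h

/-- Glue assignments of the two parts. -/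
def combine {V₁ V₂ : Type*} : (V₁ → Bool) × (V₂ → Bool) → (V₁ ⊕ V₂ → Bool) :=
  fun σ => Sum.elim σ.1 σ.2

lemma combine_sat {V₁ V₂ : Type*} (σ : (V₁ → Bool) × (V₂ → Bool)) (c : WC k V₁ ⊕ WC k V₂) :
    wsat (combine σ) (embSum c) ↔ satSum wsat wsat σ c := by
  rcases c with c | c <;> simp [wsat, combine, embSum, embL, embR, satSum]

lemma gl_disc_transport {V₁ V₂ : Type*} [Fintype V₁] [DecidableEq V₁] [Fintype V₂]
    [DecidableEq V₂] (w : WC k V₁ ⊕ WC k V₂ → ℝ) (m : ℕ) :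
    gl wsat (List.replicate m (push embSum w)) (Set.univ : Set (V₁ ⊕ V₂ → Bool)) =
      gl (satSum wsat wsat) (List.replicate m w)
        ((Set.univ : Set (V₁ → Bool)) ×ˢ (Set.univ : Set (V₂ → Bool))) := by
  have h := gl_transport_replicate (wsat (k := k) (V := V₁ ⊕ V₂))
    (satSum (wsat (k := k) (V := V₁)) (wsat (k := k) (V := V₂))) combine embSum
    combine_sat w m ((Set.univ : Set (V₁ → Bool)) ×ˢ (Set.univ : Set (V₂ → Bool)))
  have himg : (combine : (V₁ → Bool) × (V₂ → Bool) → (V₁ ⊕ V₂ → Bool)) ''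
      ((Set.univ : Set (V₁ → Bool)) ×ˢ (Set.univ : Set (V₂ → Bool))) = Set.univ := by
    rw [Set.univ_prod_univ]
    refine Set.image_univ_of_surjective fun σ => ⟨(σ ∘ Sum.inl, σ ∘ Sum.inr), ?_⟩
    funext v; rcases v with v | v <;> rfl
  rw [himg] at h
  exact h

end Transports

section CoreSec

lemma discW_nonneg {k : ℕ} {V₁ V₂ : Type*} [Fintype V₁] [Fintype V₂] [Nonempty V₁]
    (c : WC k V₁ ⊕ WC k V₂) : 0 ≤ discW k V₁ V₂ c := by
  have hN₁ : (0 : ℝ) < Fintype.card V₁ := by exact_mod_cast Fintype.card_pos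
  have hN₂ : (0 : ℝ) ≤ Fintype.card V₂ := by positivity
  refine wSum_nonneg (by positivity) ?_ (fun _ => unif_nonneg _) (fun _ => unif_nonneg _) c
  rw [div_le_one (by positivity)]; linarith

/-- The core finite inequality: the random formula on `n₁ + n₂` variables with `m` clauses is
satisfiable at least as often as the two independent formulas on `n₁` and `n₂` variables with
`j₁` and `j₂` clauses, up to explicit factors and binomial tail errors. -/
theorem core_ineq (k n₁ n₂ : ℕ) (h₁ : k ≤ n₁) (h₂ : k ≤ n₂) (hn₁ : 0 < n₁) (hn₂ : 0 < n₂)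
    (m s j₁ j₂ : ℕ) :
    rho k n₁ ^ j₁ * rho k n₂ ^ j₂ * (satProb k n₁ j₁ * satProb k n₂ j₂)
      - tail ((n₁ : ℝ) / ((n₁ : ℝ) + n₂)) (m + s) (j₁ + 1)
      - tail (1 - (n₁ : ℝ) / ((n₁ : ℝ) + n₂)) (m + s) (j₂ + 1)
      - tail (1 - rho k (n₁ + n₂)) (m + s) (s + 1) ≤ satProb k (n₁ + n₂) m := by
  have : Nonempty (Fin n₁) := ⟨⟨0, hn₁⟩⟩
  have : Nonempty (Fin n₂) := ⟨⟨0, hn₂⟩⟩
  have : Nonempty (Fin (n₁ + n₂)) := ⟨⟨0, by omega⟩⟩
  set p : ℝ := (n₁ : ℝ) / ((n₁ : ℝ) + n₂) with hp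
  have hn₁' : (0 : ℝ) < n₁ := by exact_mod_cast hn₁
  have hn₂' : (0 : ℝ) < n₂ := by exact_mod_cast hn₂
  have hp0 : 0 ≤ p := by positivity
  have hp1 : p ≤ 1 := by rw [hp, div_le_one (by positivity)]; linarith
  -- the two parts
  set W₁ := gl wsat (List.replicate j₁ (unif (WC k (Fin n₁)))) Set.univ with hW₁
  set W₂ := gl wsat (List.replicate j₂ (unif (WC k (Fin n₂)))) Set.univ with hW₂
  have a₁ : rho k n₁ ^ j₁ * satProb k n₁ j₁ ≤ W₁ := by
    have := wr_lower (k := k) (V := Fin n₁) (by simpa using h₁) j₁ Set.univ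
    rw [Fintype.card_fin] at this
    rw [satProb_eq_oc]; exact this
  have a₂ : rho k n₂ ^ j₂ * satProb k n₂ j₂ ≤ W₂ := by
    have := wr_lower (k := k) (V := Fin n₂) (by simpa using h₂) j₂ Set.univ
    rw [Fintype.card_fin] at this
    rw [satProb_eq_oc]; exact this
  have b₁ : 0 ≤ rho k n₁ ^ j₁ * satProb k n₁ j₁ :=
    mul_nonneg (pow_nonneg (rho_nonneg _ _) _) (satProb_nonneg _ _ _)
  have b₂ : 0 ≤ rho k n₂ ^ j₂ * satProb k n₂ j₂ :=
    mul_nonneg (pow_nonneg (rho_nonneg _ _) _) (satProb_nonneg _ _ _)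
  have hprod : rho k n₁ ^ j₁ * rho k n₂ ^ j₂ * (satProb k n₁ j₁ * satProb k n₂ j₂) ≤ W₁ * W₂ := by
    calc rho k n₁ ^ j₁ * rho k n₂ ^ j₂ * (satProb k n₁ j₁ * satProb k n₂ j₂)
        = (rho k n₁ ^ j₁ * satProb k n₁ j₁) * (rho k n₂ ^ j₂ * satProb k n₂ j₂) := by ring
      _ ≤ W₁ * W₂ := mul_le_mul a₁ a₂ b₂ (b₁.trans a₁)
  -- the disconnected model
  have hdisc := disc_lower (wsat (k := k) (V := Fin n₁)) (wsat (k := k) (V := Fin n₂)) p hp0 hp1
    (unif (WC k (Fin n₁))) (unif (WC k (Fin n₂))) (fun _ => unif_nonneg _) (fun _ => unif_nonneg _)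
    sum_unif sum_unif (m + s) j₁ j₂ Set.univ Set.univ
  have hdW : discW k (Fin n₁) (Fin n₂) = wSum p (unif (WC k (Fin n₁))) (unif (WC k (Fin n₂))) := by
    unfold discW; simp [hp]
  rw [← hdW, ← gl_disc_transport] at hdisc
  -- domination
  have hdom := gl_replicate_mono (wsat (k := k) (V := Fin n₁ ⊕ Fin n₂))
    (unif (WC k (Fin n₁ ⊕ Fin n₂))) (push embSum (discW k (Fin n₁) (Fin n₂)))
    (fun _ => unif_nonneg _) (push_nonneg _ _ discW_nonneg) single_dom (m + s) Set.univ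
  -- renaming the variables
  have hren := gW_congr (k := k) (finSumFinEquiv : Fin n₁ ⊕ Fin n₂ ≃ Fin (n₁ + n₂)) (m + s)
  -- back to proper clauses
  have hup := wr_upper (k := k) (V := Fin (n₁ + n₂)) (by simp; omega) (m + s) s Set.univ
  rw [Fintype.card_fin, Nat.add_sub_cancel, ← satProb_eq_oc] at hup
  linarith

/-- First moment bound, transferred to proper clauses. -/
theorem first_moment (k n : ℕ) (h : k ≤ n) (hn : 0 < n) (m : ℕ) :
    rho k n ^ m * satProb k n m ≤ (2 : ℝ) ^ n * (1 - (1 / 2 : ℝ) ^ k) ^ m := by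
  have : Nonempty (Fin n) := ⟨⟨0, hn⟩⟩
  have h1 := wr_lower (k := k) (V := Fin n) (by simpa using h) m Set.univ
  rw [Fintype.card_fin, ← satProb_eq_oc] at h1
  have hq0 : (0 : ℝ) ≤ 1 - (1 / 2 : ℝ) ^ k := by
    have : (1 / 2 : ℝ) ^ k ≤ 1 := pow_le_one₀ (by norm_num) (by norm_num)
    linarith
  have h2 := gl_first_moment (wsat (k := k) (V := Fin n)) (unif (WC k (Fin n)))
    (fun _ => unif_nonneg _) (1 - (1 / 2 : ℝ) ^ k) hq0 gl_single_unif_singleton_le m Set.univ
  have h3 : (∑ σ : Fin n → Bool, Set.indicator (Set.univ : Set (Fin n → Bool))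
      (fun _ => (1 : ℝ)) σ) = (2 : ℝ) ^ n := by
    simp
  rw [h3] at h2
  exact h1.trans h2

end CoreSec

end Vale.Agent.Lib.P170
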