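import Vale.Agent.Lib.P170.Mix

set_option linter.unusedSectionVars false

namespace Vale.Agent.Lib.P170

open Finset

section Count

variable {A C : Type*} [Fintype C]

lemma sum_fin_succ_fun (m : ℕ) (f : (Fin (m + 1) → C) → ℝ) :
    ∑ F : Fin (m + 1) → C, f F = ∑ c : C, ∑ F : Fin m → C, f (Fin.cons c F) := by
  rw [← Fintype.sum_prod_type']
  exact (Fintype.sum_equiv (Fin.consEquiv (fun _ : Fin (m + 1) => C)) _ _ fun p => by
    simp [Fin.consEquiv]).symm

/-- The uniform weight on a finite type. -/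
noncomputable def unif (C : Type*) [Fintype C] : C → ℝ := fun _ => (Fintype.card C : ℝ)⁻¹

lemma unif_nonneg (c : C) : 0 ≤ unif C c := by unfold unif; positivity

lemma sum_unif [Nonempty C] : ∑ c, unif C c = 1 := by
  simp [unif]

lemma sum_unif_le : ∑ c, unif C c ≤ 1 := by
  rcases isEmpty_or_nonempty C with h | h
  · simp
  · exact sum_unif.le

open Classical in
/-- For uniform weights the recursion counts satisfiable clause sequences. -/
lemma gl_unif_eq_count (sat : A → C → Prop) : ∀ (m : ℕ) (S : Set A),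
    gl sat (List.replicate m (unif C)) S =
      (∑ F : Fin m → C, if ∃ σ ∈ S, ∀ j, sat σ (F j) then (1 : ℝ) else 0) /
        (Fintype.card C : ℝ) ^ m
  | 0, S => by
    by_cases hS : S.Nonempty
    · simp only [ind_of_nonempty hS, List.replicate_zero, gl_nil]
      simpa [Set.Nonempty] using hS
    · simp only [ind_of_not_nonempty hS, List.replicate_zero, gl_nil]
      simpa [Set.Nonempty] using hS
  | m + 1, S => by
    rw [List.replicate_succ, gl_cons]
    simp only [gl_unif_eq_count sat m]
    rw [sum_fin_succ_fun]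
    have key : ∀ (c : C) (F : Fin m → C),
        (∃ σ ∈ S, ∀ j, sat σ ((Fin.cons c F : Fin (m + 1) → C) j)) ↔
          ∃ σ ∈ cut sat S c, ∀ j, sat σ (F j) := by
      intro c F
      constructor
      · rintro ⟨σ, hσ, h⟩
        refine ⟨σ, ⟨hσ, by simpa using h 0⟩, fun j => by simpa using h j.succ⟩
      · rintro ⟨σ, ⟨hσ, h0⟩, h⟩
        refine ⟨σ, hσ, fun j => ?_⟩
        refine Fin.cases ?_ (fun i => ?_) j
        · simpa using h0
        · simpa using h i
    simp only [key, unif]
    rw [Finset.sum_div, pow_succ]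
    refine Finset.sum_congr rfl fun c _ => ?_
    rw [inv_mul_eq_div, div_div]

/-- First moment bound. -/
lemma gl_first_moment [Fintype A] (sat : A → C → Prop) (w : C → ℝ) (hw : ∀ c, 0 ≤ w c) (q : ℝ)
    (hq0 : 0 ≤ q) (hq : ∀ σ : A, gl sat [w] {σ} ≤ q) :
    ∀ (m : ℕ) (S : Set A),
      gl sat (List.replicate m w) S ≤ (∑ σ, Set.indicator S (fun _ => (1 : ℝ)) σ) * q ^ m := by
  classical
  have hind : ∀ (S : Set A) (σ : A), 0 ≤ Set.indicator S (fun _ => (1 : ℝ)) σ := fun S σ =>
    Set.indicator_nonneg (fun _ _ => zero_le_one) σ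
  intro m
  induction m with
  | zero =>
    intro S
    simp only [List.replicate_zero, gl_nil, pow_zero, mul_one]
    by_cases hS : S.Nonempty
    · obtain ⟨σ₀, hσ₀⟩ := hS
      rw [ind_of_nonempty ⟨σ₀, hσ₀⟩]
      calc (1 : ℝ) = Set.indicator S (fun _ => (1 : ℝ)) σ₀ := by simp [hσ₀]
        _ ≤ _ := Finset.single_le_sum (fun σ _ => hind S σ) (Finset.mem_univ σ₀)
    · rw [ind_of_not_nonempty hS]
      exact Finset.sum_nonneg fun σ _ => hind S σ
  | succ m ih =>
    intro S
    rw [List.replicate_succ, gl_cons]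
    have step1 : ∑ c, w c * gl sat (List.replicate m w) (cut sat S c) ≤
        ∑ c, w c * ((∑ σ, Set.indicator (cut sat S c) (fun _ => (1 : ℝ)) σ) * q ^ m) :=
      Finset.sum_le_sum fun c _ => mul_le_mul_of_nonneg_left (ih _) (hw c)
    refine step1.trans ?_
    have e1 : ∀ (c : C) (σ : A), Set.indicator (cut sat S c) (fun _ => (1 : ℝ)) σ =
        Set.indicator S (fun _ => (1 : ℝ)) σ * ind (cut sat ({σ} : Set A) c) := by
      intro c σ
      by_cases h1 : σ ∈ S
      · by_cases h2 : sat σ c
        · have m1 : σ ∈ cut sat S c := ⟨h1, h2⟩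
          have m2 : (cut sat ({σ} : Set A) c).Nonempty := ⟨σ, rfl, h2⟩
          rw [Set.indicator_of_mem m1, Set.indicator_of_mem h1, ind_of_nonempty m2]; norm_num
        · have m1 : σ ∉ cut sat S c := fun h => h2 h.2
          have m2 : ¬ (cut sat ({σ} : Set A) c).Nonempty := by
            rintro ⟨τ, hτ, hs⟩
            have : τ = σ := hτ
            exact h2 (this ▸ hs)
          rw [Set.indicator_of_notMem m1, ind_of_not_nonempty m2]; simp
      · have m1 : σ ∉ cut sat S c := fun h => h1 h.1
        rw [Set.indicator_of_notMem m1, Set.indicator_of_notMem h1]; simp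
    have e2 : ∑ c, w c * ((∑ σ, Set.indicator (cut sat S c) (fun _ => (1 : ℝ)) σ) * q ^ m) =
        ∑ σ, Set.indicator S (fun _ => (1 : ℝ)) σ * gl sat [w] {σ} * q ^ m := by
      simp only [Finset.sum_mul, Finset.mul_sum, gl_cons, gl_nil]
      rw [Finset.sum_comm]
      refine Finset.sum_congr rfl fun σ _ => Finset.sum_congr rfl fun c _ => ?_
      rw [e1]; ring
    rw [e2, Finset.sum_mul]
    refine Finset.sum_le_sum fun σ _ => ?_
    have := mul_le_mul_of_nonneg_left (hq σ) (hind S σ)
    have hqm : 0 ≤ q ^ m := pow_nonneg hq0 m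
    calc Set.indicator S (fun _ => (1 : ℝ)) σ * gl sat [w] {σ} * q ^ m
        ≤ Set.indicator S (fun _ => (1 : ℝ)) σ * q * q ^ m :=
          mul_le_mul_of_nonneg_right this hqm
      _ = Set.indicator S (fun _ => (1 : ℝ)) σ * q ^ (m + 1) := by ring

end Count

end Vale.Agent.Lib.P170
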