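import Vale.Agent.Lib.P170.Mix

set_option linter.unusedSectionVars false

namespace Vale.Agent.Lib.P170

open Finset

section Disc

variable {A₁ A₂ C₁ C₂ : Type*} [Fintype C₁] [Fintype C₂]

/-- Satisfaction in the disconnected (product) model: a clause of the first kind only looks
at the first component of the assignment, a clause of the second kind at the second. -/
def satSum (sat₁ : A₁ → C₁ → Prop) (sat₂ : A₂ → C₂ → Prop) : A₁ × A₂ → C₁ ⊕ C₂ → Prop :=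
  fun σ c => Sum.elim (sat₁ σ.1) (sat₂ σ.2) c

/-- Weights of the disconnected model: with probability `p` a `w₁`-clause of the first
kind, with probability `1 - p` a `w₂`-clause of the second kind. -/
def wSum (p : ℝ) (w₁ : C₁ → ℝ) (w₂ : C₂ → ℝ) : C₁ ⊕ C₂ → ℝ :=
  Sum.elim (fun c => p * w₁ c) (fun c => (1 - p) * w₂ c)

lemma wSum_inl (p : ℝ) (w₁ : C₁ → ℝ) (w₂ : C₂ → ℝ) (c : C₁) :
    wSum p w₁ w₂ (Sum.inl c) = p * w₁ c := rfl

lemma wSum_inr (p : ℝ) (w₁ : C₁ → ℝ) (w₂ : C₂ → ℝ) (c : C₂) :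
    wSum p w₁ w₂ (Sum.inr c) = (1 - p) * w₂ c := rfl

lemma ind_prod (S₁ : Set A₁) (S₂ : Set A₂) : ind (S₁ ×ˢ S₂) = ind S₁ * ind S₂ := by
  by_cases h₁ : S₁.Nonempty
  · by_cases h₂ : S₂.Nonempty
    · rw [ind_of_nonempty h₁, ind_of_nonempty h₂, ind_of_nonempty (h₁.prod h₂)]; norm_num
    · rw [ind_of_not_nonempty h₂, ind_of_not_nonempty (by
        rw [Set.prod_nonempty_iff]; tauto)]; simp
  · rw [ind_of_not_nonempty h₁, ind_of_not_nonempty (by
      rw [Set.prod_nonempty_iff]; tauto)]; simp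

lemma cut_prod_inl (sat₁ : A₁ → C₁ → Prop) (sat₂ : A₂ → C₂ → Prop) (S₁ : Set A₁) (S₂ : Set A₂)
    (c : C₁) : cut (satSum sat₁ sat₂) (S₁ ×ˢ S₂) (Sum.inl c) = (cut sat₁ S₁ c) ×ˢ S₂ := by
  ext ⟨a, b⟩; simp only [cut, satSum, Set.mem_ofPred_eq, Set.mem_prod, Sum.elim_inl]; tauto

lemma cut_prod_inr (sat₁ : A₁ → C₁ → Prop) (sat₂ : A₂ → C₂ → Prop) (S₁ : Set A₁) (S₂ : Set A₂)
    (c : C₂) : cut (satSum sat₁ sat₂) (S₁ ×ˢ S₂) (Sum.inr c) = S₁ ×ˢ (cut sat₂ S₂ c) := by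
  ext ⟨a, b⟩; simp only [cut, satSum, Set.mem_ofPred_eq, Set.mem_prod, Sum.elim_inr]; tauto

lemma wSum_nonneg {p : ℝ} (hp0 : 0 ≤ p) (hp1 : p ≤ 1) {w₁ : C₁ → ℝ} {w₂ : C₂ → ℝ}
    (hw₁ : ∀ c, 0 ≤ w₁ c) (hw₂ : ∀ c, 0 ≤ w₂ c) (c : C₁ ⊕ C₂) : 0 ≤ wSum p w₁ w₂ c := by
  rcases c with c | c
  · exact mul_nonneg hp0 (hw₁ c)
  · exact mul_nonneg (by linarith) (hw₂ c)

lemma sum_wSum (p : ℝ) (w₁ : C₁ → ℝ) (w₂ : C₂ → ℝ) (h₁ : ∑ c, w₁ c = 1) (h₂ : ∑ c, w₂ c = 1) :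
    ∑ c, wSum p w₁ w₂ c = 1 := by
  rw [Fintype.sum_sum_type]
  simp only [wSum_inl, wSum_inr, ← Finset.mul_sum, h₁, h₂]
  ring

/-- In the disconnected model with product alive set, the survival probability after `m`
clauses is at least the product of the survival probabilities of the two parts after `j₁`
and `j₂` clauses, up to the probability that a part receives more clauses than that. -/
lemma disc_lower (sat₁ : A₁ → C₁ → Prop) (sat₂ : A₂ → C₂ → Prop) (p : ℝ) (hp0 : 0 ≤ p)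
    (hp1 : p ≤ 1) (w₁ : C₁ → ℝ) (w₂ : C₂ → ℝ) (hw₁ : ∀ c, 0 ≤ w₁ c) (hw₂ : ∀ c, 0 ≤ w₂ c)
    (h₁ : ∑ c, w₁ c = 1) (h₂ : ∑ c, w₂ c = 1) :
    ∀ (m j₁ j₂ : ℕ) (S₁ : Set A₁) (S₂ : Set A₂),
      gl sat₁ (List.replicate j₁ w₁) S₁ * gl sat₂ (List.replicate j₂ w₂) S₂
        - tail p m (j₁ + 1) - tail (1 - p) m (j₂ + 1) ≤
      gl (satSum sat₁ sat₂) (List.replicate m (wSum p w₁ w₂)) (S₁ ×ˢ S₂) := by
  have hq0 : 0 ≤ 1 - p := by linarith
  have hq1 : 1 - p ≤ 1 := by linarith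
  have g1nn : ∀ j S, 0 ≤ gl sat₁ (List.replicate j w₁) S := fun j S =>
    gl_nonneg sat₁ _ (mem_replicate_nonneg hw₁ j) S
  have g2nn : ∀ j S, 0 ≤ gl sat₂ (List.replicate j w₂) S := fun j S =>
    gl_nonneg sat₂ _ (mem_replicate_nonneg hw₂ j) S
  have g1le : ∀ j S, gl sat₁ (List.replicate j w₁) S ≤ ind S := fun j S =>
    gl_le_ind sat₁ _ (mem_replicate_nonneg hw₁ j) (mem_replicate_sum h₁.le j) S
  have g2le : ∀ j S, gl sat₂ (List.replicate j w₂) S ≤ ind S := fun j S =>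
    gl_le_ind sat₂ _ (mem_replicate_nonneg hw₂ j) (mem_replicate_sum h₂.le j) S
  have gdnn : ∀ m S, 0 ≤ gl (satSum sat₁ sat₂) (List.replicate m (wSum p w₁ w₂)) S :=
    fun m S => gl_nonneg _ _ (mem_replicate_nonneg (wSum_nonneg hp0 hp1 hw₁ hw₂) m) S
  intro m
  induction m with
  | zero =>
    intro j₁ j₂ S₁ S₂
    simp only [List.replicate_zero, gl_nil, tail_zero_succ, sub_zero, ind_prod]
    exact mul_le_mul (g1le j₁ S₁) (g2le j₂ S₂) (g2nn j₂ S₂) (ind_nonneg S₁)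
  | succ m ih =>
    intro j₁ j₂ S₁ S₂
    rw [List.replicate_succ, gl_cons, Fintype.sum_sum_type]
    simp only [wSum_inl, wSum_inr, cut_prod_inl, cut_prod_inr]
    set G₁ := gl sat₁ (List.replicate j₁ w₁) S₁ with hG₁
    set G₂ := gl sat₂ (List.replicate j₂ w₂) S₂ with hG₂
    have hG1 : G₁ ≤ 1 := (g1le j₁ S₁).trans (ind_le_one _)
    have hG2 : G₂ ≤ 1 := (g2le j₂ S₂).trans (ind_le_one _)
    have hG10 : 0 ≤ G₁ := g1nn j₁ S₁
    have hG20 : 0 ≤ G₂ := g2nn j₂ S₂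
    -- first part
    have hfirst : G₁ * G₂ - tail p m j₁ - tail (1 - p) m (j₂ + 1) ≤
        ∑ c, w₁ c * gl (satSum sat₁ sat₂) (List.replicate m (wSum p w₁ w₂))
          ((cut sat₁ S₁ c) ×ˢ S₂) := by
      cases j₁ with
      | zero =>
        rw [tail_zero_right]
        have : 0 ≤ ∑ c, w₁ c * gl (satSum sat₁ sat₂) (List.replicate m (wSum p w₁ w₂))
            ((cut sat₁ S₁ c) ×ˢ S₂) :=
          Finset.sum_nonneg fun c _ => mul_nonneg (hw₁ c) (gdnn m _)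
        have ht := tail_nonneg hq0 hq1 m (j₂ + 1)
        nlinarith
      | succ j =>
        have e1 : G₁ = ∑ c, w₁ c * gl sat₁ (List.replicate j w₁) (cut sat₁ S₁ c) := by
          rw [hG₁, List.replicate_succ, gl_cons]
        have e2 : G₁ * G₂ - tail p m (j + 1) - tail (1 - p) m (j₂ + 1) =
            ∑ c, w₁ c * (gl sat₁ (List.replicate j w₁) (cut sat₁ S₁ c) * G₂
              - tail p m (j + 1) - tail (1 - p) m (j₂ + 1)) := by
          simp only [mul_sub, Finset.sum_sub_distrib, ← Finset.sum_mul, h₁, one_mul]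
          rw [e1, Finset.sum_mul]
          refine congrArg₂ _ (congrArg₂ _ (Finset.sum_congr rfl fun c _ => by ring) rfl) rfl
        rw [e2]
        exact Finset.sum_le_sum fun c _ =>
          mul_le_mul_of_nonneg_left (ih j j₂ (cut sat₁ S₁ c) S₂) (hw₁ c)
    have hsecond : G₁ * G₂ - tail p m (j₁ + 1) - tail (1 - p) m j₂ ≤
        ∑ c, w₂ c * gl (satSum sat₁ sat₂) (List.replicate m (wSum p w₁ w₂))
          (S₁ ×ˢ (cut sat₂ S₂ c)) := by
      cases j₂ with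
      | zero =>
        rw [tail_zero_right]
        have : 0 ≤ ∑ c, w₂ c * gl (satSum sat₁ sat₂) (List.replicate m (wSum p w₁ w₂))
            (S₁ ×ˢ (cut sat₂ S₂ c)) :=
          Finset.sum_nonneg fun c _ => mul_nonneg (hw₂ c) (gdnn m _)
        have ht := tail_nonneg hp0 hp1 m (j₁ + 1)
        nlinarith
      | succ j =>
        have e1 : G₂ = ∑ c, w₂ c * gl sat₂ (List.replicate j w₂) (cut sat₂ S₂ c) := by
          rw [hG₂, List.replicate_succ, gl_cons]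
        have e2 : G₁ * G₂ - tail p m (j₁ + 1) - tail (1 - p) m (j + 1) =
            ∑ c, w₂ c * (G₁ * gl sat₂ (List.replicate j w₂) (cut sat₂ S₂ c)
              - tail p m (j₁ + 1) - tail (1 - p) m (j + 1)) := by
          simp only [mul_sub, Finset.sum_sub_distrib, ← Finset.sum_mul, h₂, one_mul]
          rw [e1, Finset.mul_sum]
          refine congrArg₂ _ (congrArg₂ _ (Finset.sum_congr rfl fun c _ => by ring) rfl) rfl
        rw [e2]
        exact Finset.sum_le_sum fun c _ =>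
          mul_le_mul_of_nonneg_left (ih j₁ j (S₁) (cut sat₂ S₂ c)) (hw₂ c)
    have r1 : ∑ c, p * w₁ c * gl (satSum sat₁ sat₂) (List.replicate m (wSum p w₁ w₂))
          ((cut sat₁ S₁ c) ×ˢ S₂) = p * ∑ c, w₁ c *
          gl (satSum sat₁ sat₂) (List.replicate m (wSum p w₁ w₂)) ((cut sat₁ S₁ c) ×ˢ S₂) := by
      rw [Finset.mul_sum]; exact Finset.sum_congr rfl fun c _ => by ring
    have r2 : ∑ c, (1 - p) * w₂ c * gl (satSum sat₁ sat₂) (List.replicate m (wSum p w₁ w₂))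
          (S₁ ×ˢ (cut sat₂ S₂ c)) = (1 - p) * ∑ c, w₂ c *
          gl (satSum sat₁ sat₂) (List.replicate m (wSum p w₁ w₂)) (S₁ ×ˢ (cut sat₂ S₂ c)) := by
      rw [Finset.mul_sum]; exact Finset.sum_congr rfl fun c _ => by ring
    rw [r1, r2, tail_succ_succ, tail_succ_succ]
    have k1 := mul_le_mul_of_nonneg_left hfirst hp0
    have k2 := mul_le_mul_of_nonneg_left hsecond hq0
    have : (1 : ℝ) - (1 - p) = p := by ring
    rw [this]
    linarith

end Disc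

end Vale.Agent.Lib.P170
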