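import Mathlib

set_option linter.unusedSectionVars false

namespace Vale.Agent.Lib.P170

open Finset

section Ind

variable {A : Type*}

open Classical in
/-- Indicator of nonemptiness of a set. -/
noncomputable def ind (S : Set A) : ℝ := if S.Nonempty then 1 else 0

lemma ind_of_nonempty {S : Set A} (h : S.Nonempty) : ind S = 1 := by simp [ind, h]

lemma ind_of_not_nonempty {S : Set A} (h : ¬ S.Nonempty) : ind S = 0 := by simp [ind, h]

lemma ind_nonneg (S : Set A) : 0 ≤ ind S := by
  unfold ind; split_ifs <;> norm_num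

lemma ind_le_one (S : Set A) : ind S ≤ 1 := by
  unfold ind; split_ifs <;> norm_num

lemma ind_mono {S T : Set A} (h : S ⊆ T) : ind S ≤ ind T := by
  by_cases hS : S.Nonempty
  · rw [ind_of_nonempty hS, ind_of_nonempty (hS.mono h)]
  · rw [ind_of_not_nonempty hS]; exact ind_nonneg T

end Ind

section Gl

variable {A C : Type*} [Fintype C]

/-- The alive set after imposing the clause `c`. -/
def cut (sat : A → C → Prop) (S : Set A) (c : C) : Set A := {σ | σ ∈ S ∧ sat σ c}

lemma cut_subset (sat : A → C → Prop) (S : Set A) (c : C) : cut sat S c ⊆ S := fun _ h => h.1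

lemma cut_mono (sat : A → C → Prop) {S T : Set A} (h : S ⊆ T) (c : C) :
    cut sat S c ⊆ cut sat T c := fun _ hσ => ⟨h hσ.1, hσ.2⟩

lemma cut_comm (sat : A → C → Prop) (S : Set A) (c d : C) :
    cut sat (cut sat S c) d = cut sat (cut sat S d) c := by
  ext σ; simp only [cut, Set.mem_ofPred_eq]; tauto

/-- Probability that the alive set `S` stays nonempty after imposing independent random
clauses drawn with the (sub)probability weights listed in `ws`. -/
noncomputable def gl (sat : A → C → Prop) : List (C → ℝ) → Set A → ℝ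
  | [], S => ind S
  | w :: ws, S => ∑ c, w c * gl sat ws (cut sat S c)

@[simp] lemma gl_nil (sat : A → C → Prop) (S : Set A) : gl sat [] S = ind S := rfl

@[simp] lemma gl_cons (sat : A → C → Prop) (w : C → ℝ) (ws : List (C → ℝ)) (S : Set A) :
    gl sat (w :: ws) S = ∑ c, w c * gl sat ws (cut sat S c) := rfl

lemma gl_nonneg (sat : A → C → Prop) :
    ∀ (ws : List (C → ℝ)), (∀ w ∈ ws, ∀ c, 0 ≤ w c) → ∀ S : Set A, 0 ≤ gl sat ws S
  | [], _, S => ind_nonneg S
  | w :: ws, h, S => by
    rw [gl_cons]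
    refine Finset.sum_nonneg fun c _ => mul_nonneg (h w (by simp) c) ?_
    exact gl_nonneg sat ws (fun w' hw' => h w' (by simp [hw'])) _

lemma gl_mono (sat : A → C → Prop) :
    ∀ (ws : List (C → ℝ)), (∀ w ∈ ws, ∀ c, 0 ≤ w c) → ∀ {S T : Set A}, S ⊆ T →
      gl sat ws S ≤ gl sat ws T
  | [], _, _, _, h => ind_mono h
  | w :: ws, hw, S, T, h => by
    rw [gl_cons, gl_cons]
    refine Finset.sum_le_sum fun c _ => mul_le_mul_of_nonneg_left ?_ (hw w (by simp) c)
    exact gl_mono sat ws (fun w' hw' => hw w' (by simp [hw'])) (cut_mono sat h c)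

lemma gl_le_ind (sat : A → C → Prop) :
    ∀ (ws : List (C → ℝ)), (∀ w ∈ ws, ∀ c, 0 ≤ w c) → (∀ w ∈ ws, ∑ c, w c ≤ 1) →
      ∀ S : Set A, gl sat ws S ≤ ind S
  | [], _, _, S => le_refl _
  | w :: ws, hw, hs, S => by
    rw [gl_cons]
    have h1 : ∀ c, w c * gl sat ws (cut sat S c) ≤ w c * ind S := fun c =>
      mul_le_mul_of_nonneg_left
        ((gl_le_ind sat ws (fun w' hw' => hw w' (by simp [hw']))
          (fun w' hw' => hs w' (by simp [hw'])) _).trans
          (ind_mono (cut_subset sat S c))) (hw w (by simp) c)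
    calc ∑ c, w c * gl sat ws (cut sat S c) ≤ ∑ c, w c * ind S :=
          Finset.sum_le_sum fun c _ => h1 c
      _ = (∑ c, w c) * ind S := by rw [Finset.sum_mul]
      _ ≤ 1 * ind S := mul_le_mul_of_nonneg_right (hs w (by simp)) (ind_nonneg S)
      _ = ind S := one_mul _

lemma gl_perm (sat : A → C → Prop) {ws ws' : List (C → ℝ)} (h : ws.Perm ws') :
    ∀ S : Set A, gl sat ws S = gl sat ws' S := by
  induction h with
  | nil => intro S; rfl
  | cons w _ ih =>
    intro S
    simp only [gl_cons]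
    exact Finset.sum_congr rfl fun c _ => by rw [ih]
  | swap w w' l =>
    intro S
    simp only [gl_cons, Finset.mul_sum]
    rw [Finset.sum_comm]
    refine Finset.sum_congr rfl fun c _ => Finset.sum_congr rfl fun d _ => ?_
    rw [cut_comm sat S d c]; ring
  | trans _ _ ih1 ih2 => intro S; rw [ih1, ih2]

lemma gl_append_singleton_mono (sat : A → C → Prop) (u u' : C → ℝ)
    (h : ∀ S : Set A, gl sat [u'] S ≤ gl sat [u] S) :
    ∀ (ws : List (C → ℝ)), (∀ w ∈ ws, ∀ c, 0 ≤ w c) → ∀ S : Set A,
      gl sat (ws ++ [u']) S ≤ gl sat (ws ++ [u]) S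
  | [], _, S => h S
  | w :: ws, hw, S => by
    simp only [List.cons_append, gl_cons]
    exact Finset.sum_le_sum fun c _ => mul_le_mul_of_nonneg_left
      (gl_append_singleton_mono sat u u' h ws (fun w' hw' => hw w' (by simp [hw'])) _)
      (hw w (by simp) c)

lemma gl_cons_mono_head (sat : A → C → Prop) (u u' : C → ℝ)
    (h : ∀ S : Set A, gl sat [u'] S ≤ gl sat [u] S)
    (ws : List (C → ℝ)) (hw : ∀ w ∈ ws, ∀ c, 0 ≤ w c) (S : Set A) :
    gl sat (u' :: ws) S ≤ gl sat (u :: ws) S := by
  rw [← gl_perm sat (List.perm_append_singleton u' ws) S,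
    ← gl_perm sat (List.perm_append_singleton u ws) S]
  exact gl_append_singleton_mono sat u u' h ws hw S

lemma mem_replicate_nonneg {w : C → ℝ} (hw : ∀ c, 0 ≤ w c) (j : ℕ) :
    ∀ w' ∈ List.replicate j w, ∀ c, 0 ≤ w' c := fun w' hw' => by
  rw [List.eq_of_mem_replicate hw']; exact hw

lemma mem_replicate_sum {w : C → ℝ} (hw : ∑ c, w c ≤ 1) (j : ℕ) :
    ∀ w' ∈ List.replicate j w, ∑ c, w' c ≤ 1 := fun w' hw' => by
  rw [List.eq_of_mem_replicate hw']; exact hw

/-- If a single `u`-clause is at least as likely to leave any alive set nonempty as a single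
`u'`-clause, the same holds for `m` independent clauses. -/
lemma gl_replicate_mono (sat : A → C → Prop) (u u' : C → ℝ) (hu : ∀ c, 0 ≤ u c)
    (hu' : ∀ c, 0 ≤ u' c) (h : ∀ S : Set A, gl sat [u'] S ≤ gl sat [u] S) :
    ∀ (m : ℕ) (S : Set A), gl sat (List.replicate m u') S ≤ gl sat (List.replicate m u) S
  | 0, S => le_refl _
  | m + 1, S => by
    rw [List.replicate_succ, List.replicate_succ]
    refine (gl_cons_mono_head sat u u' h _ (mem_replicate_nonneg hu' m) S).trans ?_
    rw [gl_cons, gl_cons]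
    exact Finset.sum_le_sum fun c _ => mul_le_mul_of_nonneg_left
      (gl_replicate_mono sat u u' hu hu' h m _) (hu c)

lemma gl_replicate_succ_le (sat : A → C → Prop) (w : C → ℝ) (hw : ∀ c, 0 ≤ w c)
    (hs : ∑ c, w c ≤ 1) :
    ∀ (m : ℕ) (S : Set A), gl sat (List.replicate (m + 1) w) S ≤ gl sat (List.replicate m w) S
  | 0, S => gl_le_ind sat [w] (mem_replicate_nonneg hw 1) (mem_replicate_sum hs 1) S
  | m + 1, S => by
    rw [List.replicate_succ, List.replicate_succ (n := m), gl_cons, gl_cons]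
    exact Finset.sum_le_sum fun c _ => mul_le_mul_of_nonneg_left
      (gl_replicate_succ_le sat w hw hs m _) (hw c)

lemma gl_replicate_antitone (sat : A → C → Prop) (w : C → ℝ) (hw : ∀ c, 0 ≤ w c)
    (hs : ∑ c, w c ≤ 1) (S : Set A) {m m' : ℕ} (h : m ≤ m') :
    gl sat (List.replicate m' w) S ≤ gl sat (List.replicate m w) S := by
  induction h with
  | refl => exact le_refl _
  | step _ ih => exact (gl_replicate_succ_le sat w hw hs _ S).trans ih

end Gl

end Vale.Agent.Lib.P170
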