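import Vale.Agent.Lib.P170.Asymp

set_option linter.unusedSectionVars false

namespace Vale.Agent.Lib.P170

open Finset

/-- Chernoff estimate used for the number of clauses falling into one part. -/
lemma chern_bound {C ε θ t : ℝ} {s : ℕ} (hC : 0 < C) (hε : 0 < ε) (hθ0 : 0 < θ) (ht0 : 0 < t)
    (ht1 : t ≤ 1) (htC : C * t ≤ ε / 2) (x nn : ℝ) (m j : ℕ) (hx0 : 0 ≤ x) (hx1 : x ≤ 1)
    (hnn : 0 < nn) (hLnn : (2 * s - Real.log (θ / 8)) * 2 / (t * ε) ≤ nn)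
    (hmx : (m : ℝ) * x ≤ C * nn) (hgap : (m : ℝ) * x + ε * nn ≤ j + 1) :
    tail x (m + s) (j + 1) ≤ θ / 8 := by
  refine (tail_chernoff' hx0 hx1 ht0.le (m + s) (j + 1)).trans ?_
  have hu : Real.exp t - 1 ≤ t + t ^ 2 := by
    have h := Real.abs_exp_sub_one_sub_id_le (x := t) (by rw [abs_of_pos ht0]; exact ht1)
    have h' := (abs_le.mp h).2
    linarith
  have hu0 : 0 ≤ Real.exp t - 1 := by have := Real.add_one_le_exp t; linarith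
  have ht2 : t ^ 2 ≤ 1 := pow_le_one₀ ht0.le ht1
  have hu2 : Real.exp t - 1 ≤ 2 := by linarith
  have hE : -(t * ((j + 1 : ℕ) : ℝ)) + ((m + s : ℕ) : ℝ) * (x * (Real.exp t - 1)) ≤
      Real.log (θ / 8) := by
    push_cast
    set u := Real.exp t - 1 with hu_def
    have hμ0 : 0 ≤ (m : ℝ) * x := by positivity
    have e1 : (m : ℝ) * x * u ≤ (m : ℝ) * x * (t + t ^ 2) := mul_le_mul_of_nonneg_left hu hμ0
    have e2 : (s : ℝ) * (x * u) ≤ (s : ℝ) * 2 := by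
      have h : x * u ≤ 1 * 2 := mul_le_mul hx1 hu2 hu0 zero_le_one
      have hs0 : (0 : ℝ) ≤ s := by positivity
      have := mul_le_mul_of_nonneg_left h hs0
      linarith
    have e3 : t * ((m : ℝ) * x + ε * nn) ≤ t * ((j : ℝ) + 1) :=
      mul_le_mul_of_nonneg_left hgap ht0.le
    have e4 : (m : ℝ) * x * t ^ 2 ≤ ε / 2 * (t * nn) := by
      calc (m : ℝ) * x * t ^ 2 ≤ C * nn * t ^ 2 :=
            mul_le_mul_of_nonneg_right hmx (by positivity)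
        _ = (C * t) * (t * nn) := by ring
        _ ≤ ε / 2 * (t * nn) := mul_le_mul_of_nonneg_right htC (by positivity)
    have e5 : (2 * s - Real.log (θ / 8)) ≤ t * ε / 2 * nn := by
      have h : (2 * s - Real.log (θ / 8)) * 2 / (t * ε) ≤ nn := hLnn
      rw [div_le_iff₀ (by positivity)] at h
      linarith
    linarith
  calc Real.exp (-(t * ((j + 1 : ℕ) : ℝ)) + ((m + s : ℕ) : ℝ) * (x * (Real.exp t - 1)))
      ≤ Real.exp (Real.log (θ / 8)) := Real.exp_le_exp.mpr hE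
    _ = θ / 8 := Real.exp_log (by positivity)

/-- Quantitative asymptotic form of the core inequality. -/
theorem quant (k : ℕ) (C ε : ℝ) (hC : 0 < C) (hε : 0 < ε) :
    ∃ θ : ℝ, 0 < θ ∧ ∃ N : ℕ, ∀ n₁ n₂ : ℕ, N ≤ n₁ → N ≤ n₂ → ∀ m j₁ j₂ : ℕ,
      (m : ℝ) ≤ C * ((n₁ : ℝ) + n₂) → (j₁ : ℝ) ≤ C * n₁ → (j₂ : ℝ) ≤ C * n₂ →
      (m : ℝ) * ((n₁ : ℝ) / ((n₁ : ℝ) + n₂)) + ε * n₁ ≤ j₁ + 1 →
      (m : ℝ) * ((n₂ : ℝ) / ((n₁ : ℝ) + n₂)) + ε * n₂ ≤ j₂ + 1 →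
      θ * (satProb k n₁ j₁ * satProb k n₂ j₂ - 3 / 8) ≤ satProb k (n₁ + n₂) m := by
  set K : ℝ := (k : ℝ) ^ 2 with hK
  have hK0 : 0 ≤ K := by positivity
  set θ : ℝ := Real.exp (-(4 * K * C)) with hθ
  have hθ0 : 0 < θ := Real.exp_pos _
  set s : ℕ := ⌈16 * C * K / θ⌉₊ with hs
  have hs1 : 16 * C * K / θ ≤ s := Nat.le_ceil _
  have hs2 : 16 * C * K ≤ s * θ := by rwa [div_le_iff₀ hθ0] at hs1
  set t : ℝ := min 1 (ε / (2 * C)) with ht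
  have ht0 : 0 < t := lt_min one_pos (by positivity)
  have ht1 : t ≤ 1 := min_le_left _ _
  have htC : C * t ≤ ε / 2 := by
    have h : t ≤ ε / (2 * C) := min_le_right _ _
    calc C * t ≤ C * (ε / (2 * C)) := mul_le_mul_of_nonneg_left h hC.le
      _ = ε / 2 := by field_simp
  set L : ℝ := (2 * s - Real.log (θ / 8)) * 2 / (t * ε) with hL
  refine ⟨θ, hθ0, k + 1 + ⌈2 * K⌉₊ + ⌈16 * K / θ⌉₊ + ⌈L⌉₊,
    fun n₁ n₂ h₁ h₂ m j₁ j₂ hm hj₁ hj₂ hg₁ hg₂ => ?_⟩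
  have hNfacts : ∀ n : ℕ, k + 1 + ⌈2 * K⌉₊ + ⌈16 * K / θ⌉₊ + ⌈L⌉₊ ≤ n →
      k ≤ n ∧ 0 < n ∧ 2 * K ≤ n ∧ 16 * K / θ ≤ n ∧ L ≤ n := by
    intro n hn
    have c1 : (⌈2 * K⌉₊ : ℝ) ≤ n := by exact_mod_cast (by omega : ⌈2 * K⌉₊ ≤ n)
    have c2 : (⌈16 * K / θ⌉₊ : ℝ) ≤ n := by exact_mod_cast (by omega : ⌈16 * K / θ⌉₊ ≤ n)
    have c3 : (⌈L⌉₊ : ℝ) ≤ n := by exact_mod_cast (by omega : ⌈L⌉₊ ≤ n)
    exact ⟨by omega, by omega, (Nat.le_ceil _).trans c1, (Nat.le_ceil _).trans c2,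
      (Nat.le_ceil _).trans c3⟩
  obtain ⟨hk₁, hp₁, hK₁, hθ₁, hL₁⟩ := hNfacts n₁ h₁
  obtain ⟨hk₂, hp₂, hK₂, hθ₂, hL₂⟩ := hNfacts n₂ h₂
  have hn₁ : (0 : ℝ) < n₁ := by exact_mod_cast hp₁
  have hn₂ : (0 : ℝ) < n₂ := by exact_mod_cast hp₂
  have hcore := core_ineq k n₁ n₂ hk₁ hk₂ hp₁ hp₂ m s j₁ j₂
  set p : ℝ := (n₁ : ℝ) / ((n₁ : ℝ) + n₂) with hp
  have hp0 : 0 ≤ p := by positivity
  have hp1 : p ≤ 1 := by rw [hp, div_le_one (by positivity)]; linarith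
  have hq : 1 - p = (n₂ : ℝ) / ((n₁ : ℝ) + n₂) := by rw [hp]; field_simp; ring
  have chern : ∀ (x : ℝ) (nn : ℝ) (j : ℕ), 0 ≤ x → x ≤ 1 → 0 < nn → L ≤ nn →
      (m : ℝ) * x ≤ C * nn → (m : ℝ) * x + ε * nn ≤ j + 1 →
      tail x (m + s) (j + 1) ≤ θ / 8 := fun x nn j hx0 hx1 hnn hLnn hmx hgap =>
    chern_bound hC hε hθ0 ht0 ht1 htC x nn m j hx0 hx1 hnn hLnn hmx hgap
  -- the three error terms
  have hsum : (0 : ℝ) < (n₁ : ℝ) + n₂ := by positivity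
  have T₁ : tail p (m + s) (j₁ + 1) ≤ θ / 8 := by
    refine chern p n₁ j₁ hp0 hp1 hn₁ hL₁ ?_ hg₁
    calc (m : ℝ) * p ≤ C * ((n₁ : ℝ) + n₂) * p := mul_le_mul_of_nonneg_right hm hp0
      _ = C * n₁ := by rw [hp]; field_simp
  have T₂ : tail (1 - p) (m + s) (j₂ + 1) ≤ θ / 8 := by
    rw [hq]
    refine chern _ n₂ j₂ (by positivity) (by rw [div_le_one hsum]; linarith) hn₂ hL₂ ?_ hg₂
    calc (m : ℝ) * ((n₂ : ℝ) / ((n₁ : ℝ) + n₂))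
        ≤ C * ((n₁ : ℝ) + n₂) * ((n₂ : ℝ) / ((n₁ : ℝ) + n₂)) :=
          mul_le_mul_of_nonneg_right hm (by positivity)
      _ = C * n₂ := by field_simp
  have T₃ : tail (1 - rho k (n₁ + n₂)) (m + s) (s + 1) ≤ θ / 8 := by
    have hx0 : 0 ≤ 1 - rho k (n₁ + n₂) := sub_nonneg.mpr (rho_le_one _ _)
    have hx1 : 1 - rho k (n₁ + n₂) ≤ 1 := by linarith [rho_nonneg k (n₁ + n₂)]
    have hρn := one_sub_rho_le (k := k) (N := n₁ + n₂) (by omega) (by omega)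
    have hmk := tail_markov hx0 hx1 (m + s) (s + 1)
    push_cast at hρn hmk
    set x₃ := 1 - rho k (n₁ + n₂) with hx₃
    set y : ℝ := K / ((n₁ : ℝ) + n₂) with hy
    have hy0 : 0 ≤ y := by positivity
    have hyK : y * ((n₁ : ℝ) + n₂) = K := by rw [hy]; field_simp
    have hyθ : y ≤ θ / 16 := by
      rw [hy, div_le_iff₀ hsum]
      have h := hθ₁
      rw [div_le_iff₀ hθ0] at h
      have h' := mul_pos hθ0 hn₂
      linarith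
    have f1 : ((m : ℝ) + s) * x₃ ≤ ((m : ℝ) + s) * y :=
      mul_le_mul_of_nonneg_left hρn (by positivity)
    have f2 : (m : ℝ) * y ≤ C * K := by
      calc (m : ℝ) * y ≤ C * ((n₁ : ℝ) + n₂) * y := mul_le_mul_of_nonneg_right hm hy0
        _ = C * K := by rw [mul_assoc, mul_comm ((n₁ : ℝ) + n₂) y, hyK]
    have f3 : (s : ℝ) * y ≤ s * (θ / 16) := mul_le_mul_of_nonneg_left hyθ (by positivity)
    have hs0 : (0 : ℝ) < (s : ℝ) + 1 := by positivity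
    have f4 : tail x₃ (m + s) (s + 1) * ((s : ℝ) + 1) ≤ θ / 8 * ((s : ℝ) + 1) := by
      linarith
    exact le_of_mul_le_mul_right f4 hs0
  -- the factor in front
  have r₁ := rho_pow_lower hk₁ hp₁ hK₁ j₁
  have r₂ := rho_pow_lower hk₂ hp₂ hK₂ j₂
  have r₁' : Real.exp (-(2 * K * C)) ≤ rho k n₁ ^ j₁ := by
    refine le_trans (Real.exp_le_exp.mpr ?_) r₁
    rw [neg_le_neg_iff, div_le_iff₀ hn₁]
    have := mul_le_mul_of_nonneg_left hj₁ (show (0 : ℝ) ≤ 2 * K by positivity)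
    linarith
  have r₂' : Real.exp (-(2 * K * C)) ≤ rho k n₂ ^ j₂ := by
    refine le_trans (Real.exp_le_exp.mpr ?_) r₂
    rw [neg_le_neg_iff, div_le_iff₀ hn₂]
    have := mul_le_mul_of_nonneg_left hj₂ (show (0 : ℝ) ≤ 2 * K by positivity)
    linarith
  have hθle : θ ≤ rho k n₁ ^ j₁ * rho k n₂ ^ j₂ := by
    have e : θ = Real.exp (-(2 * K * C)) * Real.exp (-(2 * K * C)) := by
      rw [hθ, ← Real.exp_add]; congr 1; ring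
    rw [e]
    exact mul_le_mul r₁' r₂' (Real.exp_pos _).le (le_trans (Real.exp_pos _).le r₁')
  have hPP : 0 ≤ satProb k n₁ j₁ * satProb k n₂ j₂ :=
    mul_nonneg (satProb_nonneg _ _ _) (satProb_nonneg _ _ _)
  have hfin := mul_le_mul_of_nonneg_right hθle hPP
  linarith

/-- Min-superadditivity (up to `o(1)`) of every sharp threshold sequence of random `k`-SAT. -/
theorem min_superadditive (k : ℕ) (r : ℕ → ℝ) (hr : IsThresholdSeq k r) (ε : ℝ) (hε : 0 < ε) :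
    ∃ N : ℕ, ∀ n₁ n₂ : ℕ, N ≤ n₁ → N ≤ n₂ → min (r n₁) (r n₂) - ε ≤ r (n₁ + n₂) := by
  obtain ⟨C₀, N₀, hC₀⟩ := thr_bdd hr
  set C : ℝ := max C₀ 0 + 1 with hC
  have hCpos : 0 < C := by have := le_max_right C₀ 0; linarith
  have hC₀C : C₀ ≤ C := by have := le_max_left C₀ 0; linarith
  obtain ⟨θ, hθ, N₁, hQ⟩ := quant k C (ε / 2) hCpos (by positivity)
  obtain ⟨N₂, hN₂⟩ := thr_pos hr (ε / 4) (by positivity)
  have hup := (hr (ε / 4) (by positivity)).1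
  have hdn := (hr (ε / 4) (by positivity)).2
  obtain ⟨N₃, hN₃⟩ := Filter.eventually_atTop.mp
    (hup.eventually (lt_mem_nhds (show (3 / 4 : ℝ) < 1 by norm_num)))
  obtain ⟨N₄, hN₄⟩ := Filter.eventually_atTop.mp
    (hdn.eventually (gt_mem_nhds (show (0 : ℝ) < θ * (3 / 16) by positivity)))
  refine ⟨max (max N₀ N₁) (max (max N₂ N₃) (max N₄ 1)), fun n₁ n₂ h₁ h₂ => ?_⟩
  by_contra hcon
  push Not at hcon
  have a₀ : N₀ ≤ max (max N₀ N₁) (max (max N₂ N₃) (max N₄ 1)) :=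
    le_trans (le_max_left _ _) (le_max_left _ _)
  have a₁ : N₁ ≤ max (max N₀ N₁) (max (max N₂ N₃) (max N₄ 1)) :=
    le_trans (le_max_right _ _) (le_max_left _ _)
  have a₂ : N₂ ≤ max (max N₀ N₁) (max (max N₂ N₃) (max N₄ 1)) :=
    le_trans (le_trans (le_max_left _ _) (le_max_left _ _)) (le_max_right _ _)
  have a₃ : N₃ ≤ max (max N₀ N₁) (max (max N₂ N₃) (max N₄ 1)) :=
    le_trans (le_trans (le_max_right _ _) (le_max_left _ _)) (le_max_right _ _)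
  have a₄ : N₄ ≤ max (max N₀ N₁) (max (max N₂ N₃) (max N₄ 1)) :=
    le_trans (le_trans (le_max_left _ _) (le_max_right _ _)) (le_max_right _ _)
  have a₅ : 1 ≤ max (max N₀ N₁) (max (max N₂ N₃) (max N₄ 1)) :=
    le_trans (le_trans (le_max_right _ _) (le_max_right _ _)) (le_max_right _ _)
  have hn₁pos : (0 : ℝ) < n₁ := by exact_mod_cast lt_of_lt_of_le one_pos (a₅.trans h₁)
  have hn₂pos : (0 : ℝ) < n₂ := by exact_mod_cast lt_of_lt_of_le one_pos (a₅.trans h₂)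
  have hsum : (0 : ℝ) < (n₁ : ℝ) + n₂ := by positivity
  have hncast : ((n₁ + n₂ : ℕ) : ℝ) = (n₁ : ℝ) + n₂ := by push_cast; ring
  have hr1 : r (n₁ + n₂) + ε < r n₁ := by have := min_le_left (r n₁) (r n₂); linarith
  have hr2 : r (n₁ + n₂) + ε < r n₂ := by have := min_le_right (r n₁) (r n₂); linarith
  have hb₁ : r n₁ ≤ C₀ := hC₀ n₁ (a₀.trans h₁)
  have hb₂ : r n₂ ≤ C₀ := hC₀ n₂ (a₀.trans h₂)
  have hpos : 0 < (r (n₁ + n₂) + ε / 4) * ((n₁ + n₂ : ℕ) : ℝ) :=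
    hN₂ (n₁ + n₂) (le_trans (a₂.trans h₁) (Nat.le_add_right _ _))
  have hm_le : ((⌊(r (n₁ + n₂) + ε / 4) * ((n₁ + n₂ : ℕ) : ℝ)⌋₊ : ℕ) : ℝ) ≤
      (r (n₁ + n₂) + ε / 4) * ((n₁ : ℝ) + n₂) := by
    rw [← hncast]; exact Nat.floor_le hpos.le
  have hm_C : ((⌊(r (n₁ + n₂) + ε / 4) * ((n₁ + n₂ : ℕ) : ℝ)⌋₊ : ℕ) : ℝ) ≤
      C * ((n₁ : ℝ) + n₂) :=
    hm_le.trans (mul_le_mul_of_nonneg_right (by linarith) hsum.le)
  have hj_C : ∀ n : ℕ, r n ≤ C₀ → ((⌊(r n - ε / 4) * (n : ℝ)⌋₊ : ℕ) : ℝ) ≤ C * n := by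
    intro n hb
    by_cases hnn : 0 ≤ (r n - ε / 4) * (n : ℝ)
    · exact (Nat.floor_le hnn).trans
        (mul_le_mul_of_nonneg_right (by linarith) (Nat.cast_nonneg n))
    · rw [Nat.floor_of_nonpos (le_of_not_ge hnn)]
      simp only [Nat.cast_zero]
      positivity
  have hgap : ∀ n : ℕ, (0 : ℝ) < n → r (n₁ + n₂) + ε < r n →
      ((⌊(r (n₁ + n₂) + ε / 4) * ((n₁ + n₂ : ℕ) : ℝ)⌋₊ : ℕ) : ℝ) *
        ((n : ℝ) / ((n₁ : ℝ) + n₂)) + ε / 2 * n ≤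
        ((⌊(r n - ε / 4) * (n : ℝ)⌋₊ : ℕ) : ℝ) + 1 := by
    intro n hn hrn
    have h1 : ((⌊(r (n₁ + n₂) + ε / 4) * ((n₁ + n₂ : ℕ) : ℝ)⌋₊ : ℕ) : ℝ) *
        ((n : ℝ) / ((n₁ : ℝ) + n₂)) ≤ (r (n₁ + n₂) + ε / 4) * n := by
      calc ((⌊(r (n₁ + n₂) + ε / 4) * ((n₁ + n₂ : ℕ) : ℝ)⌋₊ : ℕ) : ℝ) *
            ((n : ℝ) / ((n₁ : ℝ) + n₂))
          ≤ ((r (n₁ + n₂) + ε / 4) * ((n₁ : ℝ) + n₂)) * ((n : ℝ) / ((n₁ : ℝ) + n₂)) :=
            mul_le_mul_of_nonneg_right hm_le (by positivity)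
        _ = (r (n₁ + n₂) + ε / 4) * n := by field_simp
    have h2 : (r n - ε / 4) * (n : ℝ) < ((⌊(r n - ε / 4) * (n : ℝ)⌋₊ : ℕ) : ℝ) + 1 :=
      Nat.lt_floor_add_one _
    have h3 := mul_pos (sub_pos.mpr hrn) hn
    linarith
  have key := hQ n₁ n₂ (a₁.trans h₁) (a₁.trans h₂) _ _ _ hm_C (hj_C n₁ hb₁) (hj_C n₂ hb₂)
    (hgap n₁ hn₁pos hr1) (hgap n₂ hn₂pos hr2)
  have hP₁ : 3 / 4 < satProb k n₁ ⌊(r n₁ - ε / 4) * (n₁ : ℝ)⌋₊ := hN₃ n₁ (a₃.trans h₁)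
  have hP₂ : 3 / 4 < satProb k n₂ ⌊(r n₂ - ε / 4) * (n₂ : ℝ)⌋₊ := hN₃ n₂ (a₃.trans h₂)
  have hP : satProb k (n₁ + n₂) ⌊(r (n₁ + n₂) + ε / 4) * ((n₁ + n₂ : ℕ) : ℝ)⌋₊ < θ * (3 / 16) :=
    hN₄ (n₁ + n₂) (le_trans (a₄.trans h₁) (Nat.le_add_right _ _))
  have hprod : 9 / 16 ≤ satProb k n₁ ⌊(r n₁ - ε / 4) * (n₁ : ℝ)⌋₊ *
      satProb k n₂ ⌊(r n₂ - ε / 4) * (n₂ : ℝ)⌋₊ := by
    have h3 := mul_pos (sub_pos.mpr hP₁) (sub_pos.mpr hP₂)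
    linarith
  have hfin : θ * (3 / 16) ≤ θ * (satProb k n₁ ⌊(r n₁ - ε / 4) * (n₁ : ℝ)⌋₊ *
      satProb k n₂ ⌊(r n₂ - ε / 4) * (n₂ : ℝ)⌋₊ - 3 / 8) :=
    mul_le_mul_of_nonneg_left (by linarith) hθ.le
  linarith

end Vale.Agent.Lib.P170
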