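import Vale.Agent.Lib.P170.Generic

set_option linter.unusedSectionVars false

namespace Vale.Agent.Lib.P170

open Finset

section Transport

variable {A C : Type*} [Fintype C]

open Classical in
/-- Push-forward of clause weights along a map of clause types. -/
noncomputable def push {C' : Type*} [Fintype C'] (φ : C' → C) (w : C' → ℝ) : C → ℝ :=
  fun c => ∑ c' ∈ Finset.univ.filter (fun c' => φ c' = c), w c'

lemma sum_push_mul {C' : Type*} [Fintype C'] (φ : C' → C) (w : C' → ℝ) (f : C → ℝ) :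
    ∑ c, push φ w c * f c = ∑ c', w c' * f (φ c') := by
  classical
  simp only [push, Finset.sum_mul]
  rw [← Finset.sum_fiberwise (s := Finset.univ) (g := φ) (f := fun c' => w c' * f (φ c'))]
  refine Finset.sum_congr rfl fun c _ => Finset.sum_congr rfl fun c' hc' => ?_
  rw [(Finset.mem_filter.mp hc').2]

lemma sum_push {C' : Type*} [Fintype C'] (φ : C' → C) (w : C' → ℝ) :
    ∑ c, push φ w c = ∑ c', w c' := by
  simpa using sum_push_mul φ w (fun _ => 1)

lemma push_nonneg {C' : Type*} [Fintype C'] (φ : C' → C) (w : C' → ℝ) (hw : ∀ c', 0 ≤ w c')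
    (c : C) : 0 ≤ push φ w c := Finset.sum_nonneg fun c' _ => hw c'

/-- Transport of the recursion along a map of assignments and a map of clauses which are
compatible with satisfaction. -/
lemma gl_transport {A' C' : Type*} [Fintype C'] (sat : A → C → Prop) (sat' : A' → C' → Prop)
    (ψ : A' → A) (φ : C' → C) (h : ∀ σ' c', sat (ψ σ') (φ c') ↔ sat' σ' c') :
    ∀ (ws : List (C' → ℝ)) (S : Set A'), gl sat (ws.map (push φ)) (ψ '' S) = gl sat' ws S
  | [], S => by
    simp only [List.map_nil, gl_nil]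
    by_cases hS : S.Nonempty
    · rw [ind_of_nonempty hS, ind_of_nonempty (hS.image ψ)]
    · rw [ind_of_not_nonempty hS, ind_of_not_nonempty (by simpa using hS)]
  | w :: ws, S => by
    simp only [List.map_cons, gl_cons]
    rw [sum_push_mul φ w (fun c => gl sat (ws.map (push φ)) (cut sat (ψ '' S) c))]
    refine Finset.sum_congr rfl fun c' _ => ?_
    have : cut sat (ψ '' S) (φ c') = ψ '' (cut sat' S c') := by
      ext σ; constructor
      · rintro ⟨⟨σ', hσ', rfl⟩, hs⟩; exact ⟨σ', ⟨hσ', (h σ' c').mp hs⟩, rfl⟩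
      · rintro ⟨σ', ⟨hσ', hs⟩, rfl⟩; exact ⟨⟨σ', hσ', rfl⟩, (h σ' c').mpr hs⟩
    rw [this, gl_transport sat sat' ψ φ h ws]

lemma gl_transport_replicate {A' C' : Type*} [Fintype C'] (sat : A → C → Prop)
    (sat' : A' → C' → Prop) (ψ : A' → A) (φ : C' → C)
    (h : ∀ σ' c', sat (ψ σ') (φ c') ↔ sat' σ' c') (w : C' → ℝ) (m : ℕ) (S : Set A') :
    gl sat (List.replicate m (push φ w)) (ψ '' S) = gl sat' (List.replicate m w) S := by
  rw [← gl_transport sat sat' ψ φ h, List.map_replicate]

end Transport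

section Tail

/-- `tail x m s` is the probability that a binomial `(m, x)` random variable is at least
`s`, defined by its recursion. -/
noncomputable def tail (x : ℝ) : ℕ → ℕ → ℝ
  | _, 0 => 1
  | 0, _ + 1 => 0
  | m + 1, s + 1 => x * tail x m s + (1 - x) * tail x m (s + 1)

@[simp] lemma tail_zero_right (x : ℝ) (m : ℕ) : tail x m 0 = 1 := by cases m <;> rfl

@[simp] lemma tail_zero_succ (x : ℝ) (s : ℕ) : tail x 0 (s + 1) = 0 := rfl

lemma tail_succ_succ (x : ℝ) (m s : ℕ) :
    tail x (m + 1) (s + 1) = x * tail x m s + (1 - x) * tail x m (s + 1) := rfl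

lemma tail_nonneg {x : ℝ} (h0 : 0 ≤ x) (h1 : x ≤ 1) : ∀ m s : ℕ, 0 ≤ tail x m s
  | _, 0 => by simp
  | 0, s + 1 => by simp
  | m + 1, s + 1 => by
    rw [tail_succ_succ]
    exact add_nonneg (mul_nonneg h0 (tail_nonneg h0 h1 m s))
      (mul_nonneg (by linarith) (tail_nonneg h0 h1 m (s + 1)))

lemma tail_le_one {x : ℝ} (h0 : 0 ≤ x) (h1 : x ≤ 1) : ∀ m s : ℕ, tail x m s ≤ 1
  | _, 0 => by simp
  | 0, s + 1 => by simp
  | m + 1, s + 1 => by
    rw [tail_succ_succ]
    have a1 := tail_le_one h0 h1 m s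
    have a2 := tail_le_one h0 h1 m (s + 1)
    nlinarith

/-- Markov bound for the binomial tail. -/
lemma tail_markov {x : ℝ} (h0 : 0 ≤ x) (h1 : x ≤ 1) : ∀ m s : ℕ, tail x m s * s ≤ m * x
  | m, 0 => by simp; positivity
  | 0, s + 1 => by simp
  | m + 1, s + 1 => by
    rw [tail_succ_succ]
    have a1 := mul_le_mul_of_nonneg_left (tail_markov h0 h1 m s) h0
    have a2 := mul_le_mul_of_nonneg_left (tail_markov h0 h1 m (s + 1)) (sub_nonneg.mpr h1)
    have a3 := mul_le_mul_of_nonneg_left (tail_le_one h0 h1 m s) h0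
    push_cast at a1 a2 a3 ⊢
    nlinarith

/-- Chernoff bound for the binomial tail. -/
lemma tail_chernoff {x : ℝ} (h0 : 0 ≤ x) (h1 : x ≤ 1) {t : ℝ} (ht : 0 ≤ t) :
    ∀ m s : ℕ, tail x m s ≤ Real.exp (-(t * s)) * (1 + x * (Real.exp t - 1)) ^ m
  | m, 0 => by
    have hE : 1 ≤ Real.exp t := Real.one_le_exp ht
    have hA : 1 ≤ 1 + x * (Real.exp t - 1) := by nlinarith
    simpa using one_le_pow₀ hA (n := m)
  | 0, s + 1 => by
    simp only [tail_zero_succ, pow_zero, mul_one]
    positivity
  | m + 1, s + 1 => by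
    rw [tail_succ_succ]
    have hE : 1 ≤ Real.exp t := Real.one_le_exp ht
    have hA : 1 ≤ 1 + x * (Real.exp t - 1) := by nlinarith
    have i1 := tail_chernoff h0 h1 ht m s
    have i2 := tail_chernoff h0 h1 ht m (s + 1)
    have hq : Real.exp (-(t * (s : ℝ))) = Real.exp (-(t * ((s + 1 : ℕ) : ℝ))) * Real.exp t := by
      rw [← Real.exp_add]; congr 1; push_cast; ring
    rw [hq] at i1
    set q := Real.exp (-(t * ((s + 1 : ℕ) : ℝ))) with hqdef
    set P := (1 + x * (Real.exp t - 1)) ^ m with hP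
    have hq0 : 0 ≤ q := (Real.exp_pos _).le
    have hP0 : 0 ≤ P := by positivity
    have j1 := mul_le_mul_of_nonneg_left i1 h0
    have j2 := mul_le_mul_of_nonneg_left i2 (sub_nonneg.mpr h1)
    have : q * (1 + x * (Real.exp t - 1)) ^ (m + 1) =
        x * (q * Real.exp t * P) + (1 - x) * (q * P) := by
      rw [pow_succ]; ring
    rw [this]
    linarith

lemma tail_chernoff' {x : ℝ} (h0 : 0 ≤ x) (h1 : x ≤ 1) {t : ℝ} (ht : 0 ≤ t) (m s : ℕ) :
    tail x m s ≤ Real.exp (-(t * s) + m * (x * (Real.exp t - 1))) := by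
  refine (tail_chernoff h0 h1 ht m s).trans ?_
  rw [Real.exp_add]
  refine mul_le_mul_of_nonneg_left ?_ (Real.exp_pos _).le
  have hE : 1 ≤ Real.exp t := Real.one_le_exp ht
  have h3 : 1 + x * (Real.exp t - 1) ≤ Real.exp (x * (Real.exp t - 1)) := by
    have := Real.add_one_le_exp (x * (Real.exp t - 1)); linarith
  calc (1 + x * (Real.exp t - 1)) ^ m ≤ (Real.exp (x * (Real.exp t - 1))) ^ m :=
        pow_le_pow_left₀ (by nlinarith) h3 m
    _ = Real.exp (m * (x * (Real.exp t - 1))) := by rw [← Real.exp_nat_mul]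

end Tail

section Mix

variable {A C : Type*} [Fintype C]

lemma mix_lower (sat : A → C → Prop) (w w₁ : C → ℝ) (ρ : ℝ) (hρ0 : 0 ≤ ρ)
    (hw₁ : ∀ c, 0 ≤ w₁ c) (hdom : ∀ c, ρ * w₁ c ≤ w c) :
    ∀ (m : ℕ) (S : Set A),
      ρ ^ m * gl sat (List.replicate m w₁) S ≤ gl sat (List.replicate m w) S
  | 0, S => by simp
  | m + 1, S => by
    rw [List.replicate_succ, List.replicate_succ, gl_cons, gl_cons, Finset.mul_sum]
    refine Finset.sum_le_sum fun c _ => ?_
    have ih := mix_lower sat w w₁ ρ hρ0 hw₁ hdom m (cut sat S c)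
    have hg : 0 ≤ gl sat (List.replicate m w₁) (cut sat S c) :=
      gl_nonneg sat _ (mem_replicate_nonneg hw₁ m) _
    calc ρ ^ (m + 1) * (w₁ c * gl sat (List.replicate m w₁) (cut sat S c))
        = (ρ * w₁ c) * (ρ ^ m * gl sat (List.replicate m w₁) (cut sat S c)) := by ring
      _ ≤ w c * gl sat (List.replicate m w) (cut sat S c) :=
        mul_le_mul (hdom c) ih (by positivity) (le_trans (mul_nonneg hρ0 (hw₁ c)) (hdom c))

lemma mix_upper (sat : A → C → Prop) (w w₁ : C → ℝ) (ρ : ℝ) (hρ0 : 0 ≤ ρ) (hρ1 : ρ ≤ 1)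
    (hw₁ : ∀ c, 0 ≤ w₁ c) (hdom : ∀ c, ρ * w₁ c ≤ w c) (hsum₁ : ∑ c, w₁ c = 1)
    (hsum : ∑ c, w c ≤ 1) :
    ∀ (m s : ℕ) (S : Set A), gl sat (List.replicate m w) S ≤
      gl sat (List.replicate (m - s) w₁) S + tail (1 - ρ) m (s + 1) := by
  have hw : ∀ c, 0 ≤ w c := fun c => le_trans (mul_nonneg hρ0 (hw₁ c)) (hdom c)
  have hx0 : 0 ≤ 1 - ρ := by linarith
  have hx1 : 1 - ρ ≤ 1 := by linarith
  intro m
  induction m with
  | zero => intro s S; simp
  | succ m ih =>
    intro s S
    by_cases hsm : m + 1 ≤ s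
    · have e : m + 1 - s = 0 := by omega
      rw [e]
      calc gl sat (List.replicate (m + 1) w) S ≤ ind S :=
            gl_le_ind sat _ (mem_replicate_nonneg hw _) (mem_replicate_sum hsum _) S
        _ = gl sat (List.replicate 0 w₁) S := rfl
        _ ≤ _ := le_add_of_nonneg_right (tail_nonneg hx0 hx1 _ _)
    · have hsm' : s ≤ m := by omega
      rw [List.replicate_succ, gl_cons]
      have hA : ∑ c, ρ * w₁ c * gl sat (List.replicate m w) (cut sat S c) ≤
          ρ * (gl sat (List.replicate (m + 1 - s) w₁) S + tail (1 - ρ) m (s + 1)) := by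
        have e : m + 1 - s = (m - s) + 1 := by omega
        rw [e, List.replicate_succ, gl_cons, mul_add, Finset.mul_sum]
        have e2 : ρ * tail (1 - ρ) m (s + 1) = ∑ c, ρ * w₁ c * tail (1 - ρ) m (s + 1) := by
          rw [← Finset.sum_mul, ← Finset.mul_sum, hsum₁, mul_one]
        rw [e2, ← Finset.sum_add_distrib]
        refine Finset.sum_le_sum fun c _ => ?_
        have h1 := ih s (cut sat S c)
        have h0 : 0 ≤ ρ * w₁ c := mul_nonneg hρ0 (hw₁ c)
        have h2 := mul_le_mul_of_nonneg_left h1 h0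
        linarith
      have hB : ∑ c, (w c - ρ * w₁ c) * gl sat (List.replicate m w) (cut sat S c) ≤
          (1 - ρ) * gl sat (List.replicate m w) S := by
        calc ∑ c, (w c - ρ * w₁ c) * gl sat (List.replicate m w) (cut sat S c)
            ≤ ∑ c, (w c - ρ * w₁ c) * gl sat (List.replicate m w) S :=
              Finset.sum_le_sum fun c _ => mul_le_mul_of_nonneg_left
                (gl_mono sat _ (mem_replicate_nonneg hw m) (cut_subset sat S c))
                (sub_nonneg.mpr (hdom c))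
          _ = (∑ c, w c - ρ * ∑ c, w₁ c) * gl sat (List.replicate m w) S := by
              rw [← Finset.sum_mul, Finset.sum_sub_distrib, Finset.mul_sum]
          _ ≤ (1 - ρ) * gl sat (List.replicate m w) S := by
              rw [hsum₁, mul_one]
              exact mul_le_mul_of_nonneg_right (by linarith)
                (gl_nonneg sat _ (mem_replicate_nonneg hw m) _)
      have hsplit : ∑ c, w c * gl sat (List.replicate m w) (cut sat S c) =
          ∑ c, ρ * w₁ c * gl sat (List.replicate m w) (cut sat S c) +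
          ∑ c, (w c - ρ * w₁ c) * gl sat (List.replicate m w) (cut sat S c) := by
        rw [← Finset.sum_add_distrib]
        exact Finset.sum_congr rfl fun c _ => by ring
      rw [hsplit]
      cases s with
      | zero =>
        rw [tail_succ_succ, tail_zero_right]
        have hg1 : gl sat (List.replicate m w) S ≤ 1 :=
          (gl_le_ind sat _ (mem_replicate_nonneg hw _) (mem_replicate_sum hsum _) S).trans
            (ind_le_one S)
        have hg0 : 0 ≤ gl sat (List.replicate (m + 1) w₁) S :=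
          gl_nonneg sat _ (mem_replicate_nonneg hw₁ _) _
        have ht0 := tail_nonneg hx0 hx1 m 1
        simp only [Nat.sub_zero] at hA ⊢
        nlinarith
      | succ s' =>
        have ihS := ih s' S
        have e : m + 1 - (s' + 1) = m - s' := by omega
        rw [e] at hA ⊢
        rw [tail_succ_succ]
        have h3 := mul_le_mul_of_nonneg_left ihS hx0
        linarith

end Mix

end Vale.Agent.Lib.P170
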