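import Vale.Agent.Lib.P170.Bridge

set_option linter.unusedSectionVars false

namespace Vale.Agent.Lib.P170

open Finset

section PC

variable {k n : ℕ}

open Classical in
noncomputable instance instFintypePC : Fintype (ProperClause k n) := by
  unfold ProperClause; infer_instance

/-- Satisfaction of a proper clause, with the argument order used by the recursion. -/
def pcsat (σ : Fin n → Bool) (c : ProperClause k n) : Prop := c.SatBy σ

/-- Forgetting the order of an ordered proper clause. -/
def ocToPC (c : OC k (Fin n)) : ProperClause k n :=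
  ⟨Finset.univ.image (ocVal c), by
    have hinj : Function.Injective (ocVal c) := fun i j h => c.2 (congrArg Prod.fst h)
    refine ⟨by rw [Finset.card_image_of_injective _ hinj, Finset.card_univ, Fintype.card_fin], ?_⟩
    intro l hl l' hl' h
    obtain ⟨i, -, rfl⟩ := Finset.mem_image.mp hl
    obtain ⟨j, -, rfl⟩ := Finset.mem_image.mp hl'
    rw [c.2 h]⟩

lemma ocToPC_sat (σ : Fin n → Bool) (c : OC k (Fin n)) : pcsat σ (ocToPC c) ↔ osat σ c := by
  constructor
  · rintro ⟨l, hl, h⟩
    obtain ⟨i, -, rfl⟩ := Finset.mem_image.mp hl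
    exact ⟨i, h⟩
  · rintro ⟨i, h⟩
    exact ⟨_, Finset.mem_image_of_mem _ (Finset.mem_univ i), h⟩

/-- The orderings of a proper clause correspond to the injections of `Fin k` into it. -/
def fiberEquiv (L : ProperClause k n) :
    {c : OC k (Fin n) // ocToPC c = L} ≃ (Fin k ↪ {l : Lit n // l ∈ L.1}) where
  toFun c := ⟨fun i => ⟨ocVal c.1 i, by
      have : ocVal c.1 i ∈ (ocToPC c.1).1 := Finset.mem_image_of_mem _ (Finset.mem_univ i)
      rw [c.2] at this; exact this⟩,
    fun i j h => c.1.2 (congrArg (fun x => x.1.1) h)⟩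
  invFun e := ⟨⟨fun i => (e i).1,
      fun i j h => e.injective (Subtype.ext (L.2.2 _ (e i).2 _ (e j).2 h))⟩, by
      apply Subtype.ext
      show Finset.univ.image (fun i => (e i).1) = L.1
      refine Finset.eq_of_subset_of_card_le ?_ ?_
      · intro l hl
        obtain ⟨i, -, rfl⟩ := Finset.mem_image.mp hl
        exact (e i).2
      · rw [Finset.card_image_of_injective _ (fun i j h => e.injective (Subtype.ext h)),
          L.2.1, Finset.card_univ, Fintype.card_fin]⟩
  left_inv c := by apply Subtype.ext; apply Subtype.ext; rfl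
  right_inv e := by
    apply Function.Embedding.ext; intro i; apply Subtype.ext; rfl

lemma card_fiber_filter (L : ProperClause k n)
    [DecidablePred (fun c : OC k (Fin n) => ocToPC c = L)] :
    (Finset.univ.filter (fun c : OC k (Fin n) => ocToPC c = L)).card = k.factorial := by
  rw [← Fintype.card_subtype, Fintype.card_congr (fiberEquiv L), Fintype.card_embedding_eq]
  simp [L.2.1, Nat.descFactorial_self]

lemma push_ocToPC :
    push (ocToPC : OC k (Fin n) → ProperClause k n) (unif (OC k (Fin n))) =
      unif (ProperClause k n) := by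
  classical
  funext L
  have hcard : Fintype.card (OC k (Fin n)) = k.factorial * Fintype.card (ProperClause k n) := by
    rw [← Finset.card_univ, Finset.card_eq_sum_card_fiberwise (f := ocToPC) (t := Finset.univ)
      (fun c _ => Finset.mem_univ _)]
    simp [card_fiber_filter, mul_comm]
  unfold push unif
  rw [Finset.sum_const, nsmul_eq_mul, card_fiber_filter, hcard]
  push_cast
  rw [mul_inv, ← mul_assoc, mul_inv_cancel₀ (by positivity), one_mul]

lemma gl_pc_eq_oc (m : ℕ) (S : Set (Fin n → Bool)) :
    gl pcsat (List.replicate m (unif (ProperClause k n))) S =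
      gl osat (List.replicate m (unif (OC k (Fin n)))) S := by
  have := gl_transport_replicate (pcsat (k := k) (n := n)) (osat (k := k) (V := Fin n)) id
    ocToPC (fun σ c => ocToPC_sat σ c) (unif (OC k (Fin n))) m S
  rw [Set.image_id, push_ocToPC] at this
  exact this

lemma satProb_eq_gl (k n m : ℕ) :
    satProb k n m = gl pcsat (List.replicate m (unif (ProperClause k n))) Set.univ := by
  classical
  rw [gl_unif_eq_count, satProb]
  congr 1
  · rw [Nat.card_eq_fintype_card, Fintype.card_subtype, Finset.natCast_card_filter]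
    refine Finset.sum_congr rfl fun F _ => ?_
    have e : (∃ σ : Fin n → Bool, ∀ j, (F j).SatBy σ) ↔
        ∃ σ ∈ (Set.univ : Set (Fin n → Bool)), ∀ j, pcsat σ (F j) := by simp [pcsat]
    by_cases h : ∃ σ : Fin n → Bool, ∀ j, (F j).SatBy σ
    · rw [if_pos h, if_pos (e.mp h)]
    · rw [if_neg h, if_neg (fun h' => h (e.mpr h'))]
  · rw [Nat.card_eq_fintype_card]

lemma satProb_eq_oc (k n m : ℕ) :
    satProb k n m = gl osat (List.replicate m (unif (OC k (Fin n)))) Set.univ := by
  rw [satProb_eq_gl, gl_pc_eq_oc]

lemma satProb_nonneg (k n m : ℕ) : 0 ≤ satProb k n m := by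
  rw [satProb_eq_oc]
  exact gl_nonneg _ _ (mem_replicate_nonneg unif_nonneg m) _

lemma satProb_le_one (k n m : ℕ) : satProb k n m ≤ 1 := by
  rw [satProb_eq_oc]
  exact (gl_le_ind _ _ (mem_replicate_nonneg unif_nonneg m)
    (mem_replicate_sum sum_unif_le m) _).trans (ind_le_one _)

lemma satProb_antitone (k n : ℕ) {m m' : ℕ} (h : m ≤ m') : satProb k n m' ≤ satProb k n m := by
  rw [satProb_eq_oc, satProb_eq_oc]
  exact gl_replicate_antitone _ _ unif_nonneg sum_unif_le _ h

lemma satProb_zero (k n : ℕ) : satProb k n 0 = 1 := by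
  rw [satProb_eq_oc]
  simp only [List.replicate_zero, gl_nil]
  exact ind_of_nonempty ⟨fun _ => true, trivial⟩

end PC

end Vale.Agent.Lib.P170
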