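import Vale.Agent.Lib.P170.Disc
import Vale.Agent.Lib.P170.Count

set_option linter.unusedSectionVars false

namespace Vale.Agent.Lib.P170

open Finset

/-- Clauses drawn with replacement: `k` arbitrary literals on the variable set `V`. -/
abbrev WC (k : ℕ) (V : Type*) : Type _ := Fin k → V × Bool

/-- Satisfaction of a clause drawn with replacement. -/
def wsat {k : ℕ} {V : Type*} (σ : V → Bool) (c : WC k V) : Prop := ∃ i, σ (c i).1 = (c i).2

section WR

variable {k : ℕ} {V : Type*} [Fintype V] [DecidableEq V]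

open Classical in
/-- The literals that are false under every assignment of `S`. -/
noncomputable def dead (S : Set (V → Bool)) : Finset (V × Bool) :=
  Finset.univ.filter (fun l => ∀ σ ∈ S, σ l.1 ≠ l.2)

lemma mem_dead (S : Set (V → Bool)) (l : V × Bool) : l ∈ dead S ↔ ∀ σ ∈ S, σ l.1 ≠ l.2 := by
  classical
  simp [dead]

lemma cut_wsat_nonempty_iff (S : Set (V → Bool)) (c : WC k V) :
    (cut wsat S c).Nonempty ↔ ¬ ∀ i, c i ∈ dead S := by
  simp only [mem_dead]
  constructor
  · rintro ⟨σ, hσ, i, hi⟩ h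
    exact h i σ hσ hi
  · intro h
    push Not at h
    obtain ⟨i, σ, hσ, hi⟩ := h
    exact ⟨σ, hσ, i, hi⟩

open Classical in
lemma sum_all_mem (D : Finset (V × Bool)) :
    ∑ c : WC k V, (if ∀ i, c i ∈ D then (1 : ℝ) else 0) = (D.card : ℝ) ^ k := by
  rw [Finset.sum_boole]
  have : (Finset.univ.filter fun c : WC k V => ∀ i, c i ∈ D) =
      Fintype.piFinset (fun _ => D) := by
    ext c; simp [Fintype.mem_piFinset]
  rw [this, Fintype.card_piFinset]; simp

lemma card_WC : (Fintype.card (WC k V) : ℝ) = (2 * (Fintype.card V : ℝ)) ^ k := by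
  simp [WC, mul_comm]

open Classical in
/-- Survival probability of the alive set `S` under one uniform clause with replacement on
`V'`, mapped literal-wise by `lm` to a clause on `V`. -/
lemma single_unif_lit {V' : Type*} [Fintype V'] [DecidableEq V'] [Nonempty V']
    (lm : V' × Bool → V × Bool) (S : Set (V → Bool)) :
    ∑ c : WC k V', unif (WC k V') c * ind (cut wsat S (fun i => lm (c i))) =
      1 - ((Finset.univ.filter (fun l : V' × Bool => lm l ∈ dead S)).card : ℝ) ^ k /
        (2 * (Fintype.card V' : ℝ)) ^ k := by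
  have hpos : (0 : ℝ) < Fintype.card V' := by exact_mod_cast Fintype.card_pos
  have hne : (2 * (Fintype.card V' : ℝ)) ^ k ≠ 0 := by positivity
  have e : ∀ c : WC k V', ind (cut wsat S (fun i => lm (c i))) =
      1 - (if ∀ i, c i ∈ Finset.univ.filter (fun l : V' × Bool => lm l ∈ dead S)
        then (1 : ℝ) else 0) := by
    intro c
    by_cases h : ∀ i, lm (c i) ∈ dead S
    · rw [ind_of_not_nonempty (by rw [cut_wsat_nonempty_iff]; simpa using h)]; simp [h]
    · rw [ind_of_nonempty (by rw [cut_wsat_nonempty_iff]; exact h)]; simp [h]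
  simp only [e, unif, mul_sub, mul_one, Finset.sum_sub_distrib, ← Finset.mul_sum, sum_all_mem]
  rw [Finset.sum_const, Finset.card_univ, nsmul_eq_mul, card_WC]
  field_simp

/-- Survival probability of the alive set `S` under one uniform clause with replacement. -/
lemma gl_single_unif [Nonempty V] (S : Set (V → Bool)) :
    gl wsat [unif (WC k V)] S =
      1 - ((dead S).card : ℝ) ^ k / (2 * (Fintype.card V : ℝ)) ^ k := by
  classical
  have h := single_unif_lit (k := k) (fun l : V × Bool => l) S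
  have e : (Finset.univ.filter (fun l : V × Bool => l ∈ dead S)) = dead S := by
    ext l; simp
  rw [e] at h
  rw [gl_cons]
  simpa using h

lemma card_dead_singleton (σ : V → Bool) :
    Fintype.card V ≤ (dead ({σ} : Set (V → Bool))).card := by
  classical
  have hsub : (Finset.univ.image (fun v : V => (v, !σ v))) ⊆ dead ({σ} : Set (V → Bool)) := by
    intro l hl
    obtain ⟨v, -, rfl⟩ := Finset.mem_image.mp hl
    rw [mem_dead]
    intro τ hτ
    have : τ = σ := hτ
    subst this
    simp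
  calc Fintype.card V = (Finset.univ.image (fun v : V => (v, !σ v))).card := by
        rw [Finset.card_image_of_injective _ (fun a b h => (Prod.mk.inj h).1), Finset.card_univ]
    _ ≤ _ := Finset.card_le_card hsub

/-- One uniform clause with replacement is satisfied by a fixed assignment with probability
at most `1 - 2^{-k}`. -/
lemma gl_single_unif_singleton_le [Nonempty V] (σ : V → Bool) :
    gl wsat [unif (WC k V)] ({σ} : Set (V → Bool)) ≤ 1 - (1 / 2 : ℝ) ^ k := by
  rw [gl_single_unif]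
  have hpos : (0 : ℝ) < Fintype.card V := by exact_mod_cast Fintype.card_pos
  have h1 : (Fintype.card V : ℝ) ≤ ((dead ({σ} : Set (V → Bool))).card : ℝ) := by
    exact_mod_cast card_dead_singleton σ
  have h2 : (1 / 2 : ℝ) ^ k ≤ ((dead ({σ} : Set (V → Bool))).card : ℝ) ^ k /
      (2 * (Fintype.card V : ℝ)) ^ k := by
    rw [← div_pow]
    refine pow_le_pow_left₀ (by norm_num) ?_ k
    rw [le_div_iff₀ (by positivity)]
    linarith
  linarith

end WR

section Dom

variable {k : ℕ} {V₁ V₂ : Type*} [Fintype V₁] [DecidableEq V₁] [Fintype V₂] [DecidableEq V₂]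

/-- A clause on `V₁` viewed as a clause on `V₁ ⊕ V₂`. -/
def embL (c : WC k V₁) : WC k (V₁ ⊕ V₂) := fun i => (Sum.inl (c i).1, (c i).2)

/-- A clause on `V₂` viewed as a clause on `V₁ ⊕ V₂`. -/
def embR (c : WC k V₂) : WC k (V₁ ⊕ V₂) := fun i => (Sum.inr (c i).1, (c i).2)

/-- A clause of either part viewed as a clause on `V₁ ⊕ V₂`. -/
def embSum : WC k V₁ ⊕ WC k V₂ → WC k (V₁ ⊕ V₂) := Sum.elim embL embR

/-- The weights of the disconnected model on `V₁ ⊕ V₂`: the part is chosen with probability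
proportional to its number of variables, then a uniform clause (with replacement) on it. -/
noncomputable def discW (k : ℕ) (V₁ V₂ : Type*) [Fintype V₁] [Fintype V₂] :
    WC k V₁ ⊕ WC k V₂ → ℝ :=
  wSum ((Fintype.card V₁ : ℝ) / ((Fintype.card V₁ : ℝ) + Fintype.card V₂))
    (unif (WC k V₁)) (unif (WC k V₂))

open Classical in
/-- A uniform clause on `V₁ ⊕ V₂` is at least as likely to leave an alive set nonempty as a
clause of the disconnected model. -/
lemma single_dom [Nonempty V₁] [Nonempty V₂] (S : Set (V₁ ⊕ V₂ → Bool)) :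
    gl wsat [push embSum (discW k V₁ V₂)] S ≤ gl wsat [unif (WC k (V₁ ⊕ V₂))] S := by
  have hN₁ : (0 : ℝ) < Fintype.card V₁ := by exact_mod_cast Fintype.card_pos
  have hN₂ : (0 : ℝ) < Fintype.card V₂ := by exact_mod_cast Fintype.card_pos
  set N₁ : ℝ := ((Fintype.card V₁ : ℕ) : ℝ) with hN₁def
  set N₂ : ℝ := ((Fintype.card V₂ : ℕ) : ℝ) with hN₂def
  set D₁ := Finset.univ.filter (fun l : V₁ × Bool => ((Sum.inl l.1, l.2) : (V₁ ⊕ V₂) × Bool) ∈ dead S)
    with hD₁
  set D₂ := Finset.univ.filter (fun l : V₂ × Bool => ((Sum.inr l.1, l.2) : (V₁ ⊕ V₂) × Bool) ∈ dead S)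
    with hD₂
  -- left side
  have hL : gl wsat [push embSum (discW k V₁ V₂)] S =
      N₁ / (N₁ + N₂) * (1 - (D₁.card : ℝ) ^ k / (2 * N₁) ^ k) +
      (1 - N₁ / (N₁ + N₂)) * (1 - (D₂.card : ℝ) ^ k / (2 * N₂) ^ k) := by
    rw [gl_cons]
    simp only [gl_nil]
    rw [sum_push_mul embSum (discW k V₁ V₂) (fun c => ind (cut wsat S c)), Fintype.sum_sum_type]
    have e1 := single_unif_lit (k := k)
      (fun l : V₁ × Bool => ((Sum.inl l.1, l.2) : (V₁ ⊕ V₂) × Bool)) S
    have e2 := single_unif_lit (k := k)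
      (fun l : V₂ × Bool => ((Sum.inr l.1, l.2) : (V₁ ⊕ V₂) × Bool)) S
    simp only [discW, wSum_inl, wSum_inr, mul_assoc, ← Finset.mul_sum]
    congr 1
    · congr 1
    · congr 1
  have hR : gl wsat [unif (WC k (V₁ ⊕ V₂))] S =
      1 - ((dead S).card : ℝ) ^ k / (2 * (N₁ + N₂)) ^ k := by
    rw [gl_single_unif]
    simp [hN₁def, hN₂def]
  rw [hL, hR]
  -- cardinalities
  have hcard : ((dead S).card : ℝ) ≤ (D₁.card : ℝ) + D₂.card := by
    have hsub : dead S ⊆ D₁.image (fun l : V₁ × Bool => ((Sum.inl l.1, l.2) : (V₁ ⊕ V₂) × Bool)) ∪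
        D₂.image (fun l : V₂ × Bool => ((Sum.inr l.1, l.2) : (V₁ ⊕ V₂) × Bool)) := by
      rintro ⟨v | v, b⟩ hl
      · exact Finset.mem_union_left _ (Finset.mem_image.mpr ⟨(v, b), by simpa [hD₁] using hl, rfl⟩)
      · exact Finset.mem_union_right _ (Finset.mem_image.mpr ⟨(v, b), by simpa [hD₂] using hl, rfl⟩)
    have := (Finset.card_le_card hsub).trans (Finset.card_union_le _ _)
    have h2 := this.trans (add_le_add Finset.card_image_le Finset.card_image_le)
    exact_mod_cast h2
  set p : ℝ := N₁ / (N₁ + N₂) with hp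
  have hp0 : 0 ≤ p := by positivity
  have hp1 : p ≤ 1 := by rw [hp, div_le_one (by positivity)]; linarith
  set x₁ : ℝ := (D₁.card : ℝ) / (2 * N₁) with hx₁
  set x₂ : ℝ := (D₂.card : ℝ) / (2 * N₂) with hx₂
  have hx₁0 : 0 ≤ x₁ := by positivity
  have hx₂0 : 0 ≤ x₂ := by positivity
  have conv := (convexOn_pow k).2 (Set.mem_Ici.mpr hx₁0) (Set.mem_Ici.mpr hx₂0) hp0
    (sub_nonneg.mpr hp1) (by ring)
  simp only [smul_eq_mul] at conv
  have hmean : ((dead S).card : ℝ) / (2 * (N₁ + N₂)) ≤ p * x₁ + (1 - p) * x₂ := by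
    have e : p * x₁ + (1 - p) * x₂ = ((D₁.card : ℝ) + D₂.card) / (2 * (N₁ + N₂)) := by
      rw [hp, hx₁, hx₂]; field_simp; ring
    rw [e]
    exact div_le_div_of_nonneg_right hcard (by positivity)
  have hpow : (((dead S).card : ℝ) / (2 * (N₁ + N₂))) ^ k ≤ (p * x₁ + (1 - p) * x₂) ^ k :=
    pow_le_pow_left₀ (by positivity) hmean k
  rw [div_pow] at hpow
  have e1 : (D₁.card : ℝ) ^ k / (2 * N₁) ^ k = x₁ ^ k := by rw [hx₁, div_pow]
  have e2 : (D₂.card : ℝ) ^ k / (2 * N₂) ^ k = x₂ ^ k := by rw [hx₂, div_pow]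
  rw [e1, e2]
  linarith

end Dom

end Vale.Agent.Lib.P170
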